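import Vale.Agent.P146.HighTemp

/-!
The sum over cycles is an average over block decompositions, and on one decomposition the planted
law gives a lower bound for the correlation sum.
-/

open MeasureTheory ProbabilityTheory Real Finset

namespace Vale.Agent.P146

open P150

variable {n m L : ℕ}

/-- A lower bound valid for every relabelling bounds the sum over all embeddings. -/
lemma sum_emb_ge {k : ℕ} {ι : Type*} [Fintype ι] (Φ : (Fin k ↪ Fin n) → ℝ)
    (e : ι → (Fin k ↪ Fin n)) {a : ℝ}
    (h : ∀ σ : Equiv.Perm (Fin n), a ≤ ∑ i, Φ ((e i).trans σ.toEmbedding)) :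
    Fintype.card (Fin k ↪ Fin n) * a ≤ Fintype.card ι * ∑ c, Φ c := by
  classical
  set K : (Fin k ↪ Fin n) → ℝ := fun f => ∑ σ : Equiv.Perm (Fin n), Φ (f.trans σ.toEmbedding)
    with hK
  have hconst : ∀ f f', K f' = K f := by
    intro f f'
    obtain ⟨τ, hτ⟩ := Equiv.Perm.exists_extending_pair f f' f.injective f'.injective
    simp only [hK]
    rw [← Equiv.sum_comp (Equiv.mulRight τ) fun σ : Equiv.Perm (Fin n) => Φ (f.trans σ.toEmbedding)]
    refine Finset.sum_congr rfl fun σ _ => congrArg Φ (Function.Embedding.ext fun x => ?_)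
    simp [hτ]
  have hsum : ∑ f, K f = Fintype.card (Equiv.Perm (Fin n)) * ∑ c, Φ c := by
    simp only [hK]
    rw [Finset.sum_comm]
    have : ∀ σ : Equiv.Perm (Fin n), ∑ f : Fin k ↪ Fin n, Φ (f.trans σ.toEmbedding) = ∑ c, Φ c :=
      fun σ => Equiv.sum_comp ((Equiv.refl (Fin k)).embeddingCongr σ) Φ
    simp [this]
  have hmain : (Fintype.card (Equiv.Perm (Fin n)) : ℝ) * a ≤ ∑ i, K (e i) := by
    simp only [hK]
    rw [Finset.sum_comm]
    refine le_trans (le_of_eq ?_) (Finset.sum_le_sum fun σ _ => h σ)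
    simp
  have hP : (0:ℝ) < Fintype.card (Equiv.Perm (Fin n)) := Nat.cast_pos.2 Fintype.card_pos
  refine le_of_mul_le_mul_left ?_ hP
  calc (Fintype.card (Equiv.Perm (Fin n)) : ℝ) * (Fintype.card (Fin k ↪ Fin n) * a)
      = Fintype.card (Fin k ↪ Fin n) * (Fintype.card (Equiv.Perm (Fin n)) * a) := by ring
    _ ≤ Fintype.card (Fin k ↪ Fin n) * ∑ i, K (e i) := by gcongr
    _ = ∑ i, ∑ _f : Fin k ↪ Fin n, K (e i) := by simp [Finset.mul_sum]
    _ = ∑ i : ι, ∑ f, K f := Finset.sum_congr rfl fun i _ =>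
        Finset.sum_congr rfl fun f _ => hconst f (e i)
    _ = _ := by rw [Finset.sum_const, card_univ, nsmul_eq_mul, hsum]; ring

/-- The edge of two sites in successive blocks. -/
def lay (P : Fin (L + 1) × Fin m ↪ Fin n) (p : Fin L × Lay m) : Edge n :=
  eo (P (p.1.castSucc, p.2.1)) (P (p.1.succ, p.2.2))
    (P.injective.ne fun h => p.1.castSucc_lt_succ.ne (Prod.mk.inj h).1)

lemma lay_injective (P : Fin (L + 1) × Fin m ↪ Fin n) : Function.Injective (lay P) := by
  rintro ⟨i, x, y⟩ ⟨j, x', y'⟩ h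
  rcases eo_eq h with ⟨h1, h2⟩ | ⟨h1, h2⟩
  · have e1 := Prod.mk.inj (P.injective h1)
    have e2 := Prod.mk.inj (P.injective h2)
    exact Prod.ext (Fin.castSucc_injective _ e1.1) (Prod.ext e1.2 e2.2)
  · have e1 := congrArg Fin.val (Prod.mk.inj (P.injective h1)).1
    have e2 := congrArg Fin.val (Prod.mk.inj (P.injective h2)).1
    simp at e1 e2
    omega

/-- One site in each block. -/
def pick (P : Fin (L + 1) × Fin m ↪ Fin n) (f : Fin (L + 1) → Fin m) : Fin (L + 1) ↪ Fin n :=
  ⟨fun i => P (i, f i), fun i j h => (Prod.mk.inj (P.injective h)).1⟩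

lemma eo_congr {i j i' j' : Fin n} {h : i ≠ j} {h' : i' ≠ j'} (hi : i = i') (hj : j = j') :
    eo i j h = eo i' j' h' := by
  subst hi hj; rfl

lemma cyc_pick (hL : 1 ≤ L) (P : Fin (L + 1) × Fin m ↪ Fin n) (f : Fin (L + 1) → Fin m) (i : Fin L) :
    cyc hL (pick P f) i.castSucc = lay P (i, (f i.castSucc, f i.succ)) := by
  refine eo_congr rfl ?_
  simp [pick, Fin.coeSucc_eq_succ]
  rfl

/-- The couplings between successive blocks in the gauge of a configuration. -/
def gauged (P : Fin (L + 1) × Fin m ↪ Fin n) (x : Conf n) (g : Edge n → ℝ) (p : Fin L × Lay m) : ℝ :=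
  g (lay P p) * pairSpin x (lay P p)

/-- The sum over paths in the gauge of a configuration. -/
def pathSum (P : Fin (L + 1) × Fin m ↪ Fin n) (x : Conf n) (g : Edge n → ℝ) : ℝ :=
  ∑ y, chain L (gauged P x g) y

@[fun_prop]
lemma continuous_pathSum (P : Fin (L + 1) × Fin m ↪ Fin n) (x : Conf n) :
    Continuous fun g => pathSum P x g := by
  unfold pathSum gauged; fun_prop

lemma prod_telescope : ∀ {L : ℕ} (a : Fin (L + 1) → ℝ), (∀ i, a i * a i = 1) →
    ∏ i : Fin L, a i.castSucc * a i.succ = a 0 * a (Fin.last L)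
  | 0, a, ha => by simpa using (ha 0).symm
  | L + 1, a, ha => by
    rw [Fin.prod_univ_succ]
    have h := prod_telescope (fun i => a i.succ) fun i => ha _
    simp only [Fin.succ_last, Fin.succ_castSucc] at h
    rw [h, Fin.castSucc_zero]
    linear_combination (a 0 * a (Fin.last (L + 1))) * ha (Fin.succ 0)

lemma spin_mul_self (x : Conf n) (i : Fin n) : spin x i * spin x i = 1 := by
  unfold spin; split_ifs <;> norm_num

lemma pathSum_eq (hL : 1 ≤ L) (P : Fin (L + 1) × Fin m ↪ Fin n) (x : Conf n) (g : Edge n → ℝ) :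
    pathSum P x g = ∑ f : Fin (L + 1) → Fin m, (∏ i : Fin L, g (cyc hL (pick P f) i.castSucc))
      * (spin x (pick P f (Fin.last L)) * spin x (pick P f 0)) := by
  have h := sum_chain_mul L (gauged P x g) fun _ => 1
  simp only [mul_one] at h
  rw [pathSum, h]
  refine Finset.sum_congr rfl fun f _ => ?_
  simp only [gauged, prod_mul_distrib, cyc_pick]
  congr 1
  simp only [lay, pairSpin_eo]
  rw [prod_telescope (fun i => spin x (P (i, f i))) fun i => spin_mul_self _ _, mul_comm]
  rfl

lemma sum_pathTerm_pick (b : ℝ) (hL : 1 ≤ L) (P : Fin (L + 1) × Fin m ↪ Fin n) (g : Edge n → ℝ) :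
    ∑ f : Fin (L + 1) → Fin m, pathTerm b hL (pick P f) g
      = gAvg (wsum (pairCoef n b) g) fun x => pathSum P x g := by
  simp only [pathTerm, gAvg, pathSum_eq hL, Finset.mul_sum, mul_div_assoc', ← Finset.sum_div]
  rw [Finset.sum_comm]
  congr 1
  exact Finset.sum_congr rfl fun x _ => Finset.sum_congr rfl fun f _ => by ring

/-- The sum of all squared couplings. -/
def sqSum (g : Edge n → ℝ) : ℝ := ∑ e, g e ^ 2

lemma abs_pathSum_le (P : Fin (L + 1) × Fin m ↪ Fin n) (x : Conf n) (g : Edge n → ℝ) :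
    |pathSum P x g| ≤ m * √(sqSum g ^ L) := by
  refine (abs_sum_chain_le L _).trans (mul_le_mul_of_nonneg_left (sqrt_le_sqrt ?_) (Nat.cast_nonneg m))
  refine (prod_le_prod (fun i _ => Finset.sum_nonneg fun p _ => sq_nonneg _) fun i _ => ?_ :
    _ ≤ ∏ _i : Fin L, sqSum g).trans_eq (by simp)
  classical
  have e : ∀ p : Lay m, gauged P x g (i, p) ^ 2 = g (lay P (i, p)) ^ 2 := fun p => by
    rw [gauged, mul_pow, pairSpin_sq, mul_one]
  simp only [e]
  rw [← Finset.sum_image (f := fun e => g e ^ 2) (g := fun p => lay P (i, p))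
    fun p _ q _ h => (Prod.mk.inj (lay_injective P h)).2]
  exact Finset.sum_le_sum_of_subset_of_nonneg (subset_univ _) fun e _ _ => sq_nonneg _

/-- The even moment of a standard Gaussian. -/
noncomputable def evenMoment (L : ℕ) : ℝ := ∫ t, (t ^ 2) ^ L ∂gaussianReal 0 1

lemma sqSum_pow (hn : 0 < n) : ∀ L : ℕ,
    Integrable (fun g : Edge n → ℝ => sqSum g ^ L) (gauss (Edge n)) ∧
      ∫ g, sqSum g ^ L ∂gauss (Edge n) ≤ ((n:ℝ) ^ 2) ^ L * evenMoment L
  | 0 => by simp [evenMoment, integrable_const]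
  | L + 1 => by
    have h1 : Integrable (fun t : ℝ => (t ^ 2) ^ (L + 1)) (gaussianReal 0 1) := by
      simp only [← pow_mul]
      refine ((memLp_id_gaussianReal ((2 * (L + 1) : ℕ) : NNReal)).integrable_norm_pow'
        (p := 2 * (L + 1))).congr (ae_of_all _ fun t => ?_)
      simp [pow_mul]
    have he : ∀ e : Edge n, Integrable (fun g : Edge n → ℝ => (g e ^ 2) ^ (L + 1)) (gauss (Edge n)) :=
      fun e => (measurePreserving_eval (fun _ : Edge n => gaussianReal 0 1) e).integrable_comp_of_integrable h1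
    have hb : ∀ g : Edge n → ℝ, sqSum g ^ (L + 1)
        ≤ (Fintype.card (Edge n) : ℝ) ^ L * ∑ e, (g e ^ 2) ^ (L + 1) := fun g =>
      pow_sum_le_card_mul_sum_pow (fun e _ => sq_nonneg (g e)) L
    have hi := (integrable_finsetSum univ fun e _ => he e).const_mul ((Fintype.card (Edge n) : ℝ) ^ L)
    have hpos : ∀ g : Edge n → ℝ, 0 ≤ sqSum g := fun g => Finset.sum_nonneg fun e _ => sq_nonneg _
    have hint : Integrable (fun g : Edge n → ℝ => sqSum g ^ (L + 1)) (gauss (Edge n)) :=
      hi.mono' (by unfold sqSum; fun_prop : Continuous _).aestronglyMeasurable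
        (ae_of_all _ fun g => by rw [norm_eq_abs, abs_of_nonneg (pow_nonneg (hpos g) _)]; exact hb g)
    refine ⟨hint, (integral_mono hint hi hb).trans ?_⟩
    rw [integral_const_mul, integral_finsetSum _ fun e _ => he e]
    have heq : ∀ e : Edge n, ∫ g, (g e ^ 2) ^ (L + 1) ∂gauss (Edge n) = evenMoment (L + 1) := fun e =>
      integral_comp_mp (measurePreserving_eval (fun _ : Edge n => gaussianReal 0 1) e)
        (F := fun t => (t ^ 2) ^ (L + 1)) h1.aestronglyMeasurable
    simp only [heq, sum_const, card_univ, nsmul_eq_mul, ← mul_assoc, ← pow_succ]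
    refine mul_le_mul_of_nonneg_right (pow_le_pow_left₀ (Nat.cast_nonneg _) ?_ _)
      (integral_nonneg fun t => pow_nonneg (sq_nonneg t) _)
    nlinarith [card_edge_le n]

/-- The event that the path sum of a configuration falls short. -/
def short (P : Fin (L + 1) × Fin m ↪ Fin n) (a : ℝ) (x : Conf n) : Set (Edge n → ℝ) :=
  {g | pathSum P x g < a}

lemma measurableSet_short (P : Fin (L + 1) × Fin m ↪ Fin n) (a : ℝ) (x : Conf n) :
    MeasurableSet (short P a x) :=
  (isOpen_lt (continuous_pathSum P x) continuous_const).measurableSet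

/-- Under the planted law a short path sum is rare. -/
lemma planted_short {b D η : ℝ} (hD : 1 ≤ D) (hη : 0 < η) (hη1 : η ≤ 1) (hb : 0 < b) (hm : 0 < m)
    (hDm : 1 ≤ D * m * b ^ 2) (P : Fin (L + 1) × Fin m ↪ Fin n) (x : Conf n) :
    ∫ g, (short P ((1 - L * η) * m * ((m : ℝ) * b) ^ L) x).indicator
        (fun g => exp (wsum (pairCoef n b) g x)) g ∂gauss (Edge n)
      ≤ exp (b ^ 2 * Fintype.card (Edge n) / 2) * (2 * L * exp (-(rate D η L * m))) := by
  set a := (1 - L * η) * m * ((m : ℝ) * b) ^ L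
  set θ : Edge n → ℝ := fun e => pairCoef n b e x
  have he : ∀ g, exp (wsum (pairCoef n b) g x)
      = exp (b ^ 2 * Fintype.card (Edge n) / 2) * tilt θ g := fun g => by
    rw [tilt, ← exp_add, wsum, ← Finset.sum_div, sum_pairCoef_sq]
    simp only [θ, mul_comm (g _)]
    ring_nf
  simp only [he]
  rw [integral_indicator (measurableSet_short P a x), integral_const_mul,
    integral_tilt_indicator θ (measurableSet_short P a x)]
  refine mul_le_mul_of_nonneg_left ?_ (exp_pos _).le
  have hρ : MeasurePreserving (fun g : Edge n → ℝ => fun p => pairSpin x (lay P p) * g (lay P p))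
      (gauss (Edge n)) (gauss (Fin L × Lay m)) :=
    (gauss_comp_injective (lay_injective P)).comp (gauss_sign (fun e => pairSpin x e) fun e => by
      have := abs_pairSpin x e; rcases (abs_eq (zero_le_one' ℝ)).1 this with h | h <;> simp [h])
  have hset : {g : Edge n → ℝ | (fun i => θ i + g i) ∈ short P a x}
      = (fun g : Edge n → ℝ => fun p => pairSpin x (lay P p) * g (lay P p)) ⁻¹'
          {ξ : Fin L × Lay m → ℝ | ∑ y, chain L (shiftBy b ξ) y < a} := by
    ext g
    have e : gauged P x (fun i => θ i + g i)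
        = shiftBy b fun p => pairSpin x (lay P p) * g (lay P p) := funext fun p => by
      simp only [gauged, shiftBy, θ, pairCoef, add_mul]
      rw [mul_assoc, ← sq, pairSpin_sq]; ring
    simp only [short, pathSum, Set.mem_ofPred_eq, Set.mem_preimage, e]
  have hmeas : MeasurableSet {ξ : Fin L × Lay m → ℝ | ∑ y, chain L (shiftBy b ξ) y < a} := by
    unfold shiftBy
    exact (isOpen_lt (by fun_prop) continuous_const).measurableSet
  rw [hset, measureReal_def, hρ.measure_preimage hmeas.nullMeasurableSet, ← measureReal_def]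
  refine le_trans (measureReal_mono (s₂ := {ξ | ¬ Good D η b L ξ}) fun ξ hξ hG => ?_)
    (chain_tail hD hη hη1 hb hm hDm L)
  exact absurd hG.1 (not_le.2 hξ)

lemma gAvg_mono {X : Type*} [Fintype X] [Nonempty X] (v : X → ℝ) {f h : X → ℝ}
    (hfh : ∀ x, f x ≤ h x) : gAvg v f ≤ gAvg v h :=
  div_le_div_of_nonneg_right
    (Finset.sum_le_sum fun x _ => mul_le_mul_of_nonneg_left (hfh x) (exp_pos _).le) (sum_exp_pos v).le

/-- The Gibbs mass of the configurations with a short path sum. -/
noncomputable def shortMass (b : ℝ) (P : Fin (L + 1) × Fin m ↪ Fin n) (a : ℝ) (g : Edge n → ℝ) : ℝ :=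
  gAvg (wsum (pairCoef n b) g) fun x => (short P a x).indicator (fun _ => (1:ℝ)) g

lemma shortMass_mem (b : ℝ) (P : Fin (L + 1) × Fin m ↪ Fin n) (a : ℝ) (g : Edge n → ℝ) :
    0 ≤ shortMass b P a g ∧ shortMass b P a g ≤ 1 := by
  refine ⟨div_nonneg (Finset.sum_nonneg fun x _ => mul_nonneg (exp_pos _).le
    (Set.indicator_nonneg (fun _ _ => zero_le_one) g)) (sum_exp_pos _).le, ?_⟩
  refine (gAvg_mono _ fun x => Set.indicator_le_self' (fun _ _ => zero_le_one) g).trans_eq ?_
  exact gAvg_const _ _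

lemma integrable_shortMass (b : ℝ) (P : Fin (L + 1) × Fin m ↪ Fin n) (a : ℝ) :
    Integrable (shortMass b P a) (gauss (Edge n)) := by
  have hm : Measurable (shortMass b P a) := by
    unfold shortMass gAvg
    refine Measurable.div (Finset.measurable_fun_sum _ fun x _ => ?_)
      (Finset.measurable_fun_sum _ fun x _ => (continuous_wsum _ x).rexp.measurable)
    exact (continuous_wsum _ x).rexp.measurable.mul
      (measurable_const.indicator (measurableSet_short P a x))
  refine Integrable.of_bound hm.aestronglyMeasurable 1 (ae_of_all _ fun g => ?_)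
  rw [norm_eq_abs, abs_of_nonneg (shortMass_mem b P a g).1]
  exact (shortMass_mem b P a g).2

/-- The Gibbs mass of short path sums, by concentration and change of measure. -/
lemma integral_shortMass_le {b D η s v : ℝ} (hD : 1 ≤ D) (hη : 0 < η) (hη1 : η ≤ 1) (hb : 0 < b)
    (hm : 0 < m) (hDm : 1 ≤ D * m * b ^ 2) (hs : 0 ≤ s)
    (hv : b ^ 2 * Fintype.card (Edge n) ≤ v) (hv0 : 0 < v) (P : Fin (L + 1) × Fin m ↪ Fin n) :
    ∫ g, shortMass b P ((1 - L * η) * m * ((m : ℝ) * b) ^ L) g ∂gauss (Edge n)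
      ≤ exp (-(s ^ 2) / (4 * v)) + exp (-(free n b - s)) *
        (2 ^ n * (exp (b ^ 2 * Fintype.card (Edge n) / 2) * (2 * L * exp (-(rate D η L * m))))) := by
  set a := (1 - L * η) * m * ((m : ℝ) * b) ^ L with ha
  set A := {g : Edge n → ℝ | logZ n b g ≤ free n b - s}
  have hA : MeasurableSet A :=
    (isClosed_le (continuous_of_coord_lip (logZ_lip b)) continuous_const).measurableSet
  have hpt : ∀ g, shortMass b P a g ≤ A.indicator (fun _ => (1:ℝ)) g + exp (-(free n b - s)) *
      ∑ x, (short P a x).indicator (fun g => exp (wsum (pairCoef n b) g x)) g := by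
    intro g
    have h0 : 0 ≤ ∑ x, (short P a x).indicator (fun g => exp (wsum (pairCoef n b) g x)) g :=
      Finset.sum_nonneg fun x _ => Set.indicator_nonneg (fun _ _ => (exp_pos _).le) g
    by_cases hg : g ∈ A
    · rw [Set.indicator_of_mem hg]
      linarith [(shortMass_mem b P a g).2, mul_nonneg (exp_pos (-(free n b - s))).le h0]
    · rw [Set.indicator_of_notMem hg, zero_add]
      have e : ∑ x, exp (wsum (pairCoef n b) g x) * (short P a x).indicator (fun _ => (1:ℝ)) g
          = ∑ x, (short P a x).indicator (fun g => exp (wsum (pairCoef n b) g x)) g :=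
        Finset.sum_congr rfl fun x _ => by by_cases hx : g ∈ short P a x <;> simp [hx]
      simp only [shortMass, gAvg, e]
      rw [div_le_iff₀ (sum_exp_pos _), mul_right_comm]
      refine le_mul_of_one_le_left h0 ?_
      rw [exp_neg, ← div_eq_inv_mul, one_le_div (exp_pos _), ← exp_lse]
      exact exp_le_exp.2 (not_le.1 hg).le
  have iI : ∀ x, Integrable ((short P a x).indicator fun g => exp (wsum (pairCoef n b) g x))
      (gauss (Edge n)) := fun x =>
    (integrable_gauss_exp _).indicator (measurableSet_short P a x)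
  have iA : Integrable (A.indicator fun _ => (1:ℝ)) (gauss (Edge n)) :=
    (integrable_const _).indicator hA
  have iS : Integrable (fun g => exp (-(free n b - s)) *
      ∑ x, (short P a x).indicator (fun g => exp (wsum (pairCoef n b) g x)) g) (gauss (Edge n)) :=
    (integrable_finsetSum _ fun x _ => iI x).const_mul _
  refine (integral_mono (integrable_shortMass b P a) (iA.fun_add iS) hpt).trans ?_
  rw [integral_add iA iS, integral_const_mul, integral_finsetSum _ fun x _ => iI x,
    integral_indicator_const _ hA, smul_eq_mul, mul_one]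
  refine add_le_add ?_ (mul_le_mul_of_nonneg_left ?_ (exp_pos _).le)
  · exact lip_lower_tail (logZ_lip b) (c := fun _ => |b|) (by simpa [mul_comm] using hv) hv0 hs
  · exact (Finset.sum_le_sum fun x _ => planted_short hD hη hη1 hb hm hDm P x).trans_eq (by simp)

lemma le_avg_pathSum (b : ℝ) (P : Fin (L + 1) × Fin m ↪ Fin n) (a : ℝ) (g : Edge n → ℝ) :
    a - (a + m * √(sqSum g ^ L)) * shortMass b P a g
      ≤ gAvg (wsum (pairCoef n b) g) fun x => pathSum P x g := by
  refine le_trans (le_of_eq ?_) (gAvg_mono _ (f := fun x =>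
    a - (a + m * √(sqSum g ^ L)) * (short P a x).indicator (fun _ => (1:ℝ)) g) fun x => ?_)
  · simp only [shortMass, gAvg, mul_sub, mul_left_comm _ (a + (m:ℝ) * √(sqSum g ^ L)),
      Finset.sum_sub_distrib, ← Finset.mul_sum, ← Finset.sum_mul]
    have := (sum_exp_pos (wsum (pairCoef n b) g)).ne'
    field_simp
  · by_cases hx : g ∈ short P a x
    · rw [Set.indicator_of_mem hx, mul_one]
      linarith [neg_abs_le (pathSum P x g), abs_pathSum_le P x g]
    · rw [Set.indicator_of_notMem hx, mul_zero, sub_zero]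
      exact not_lt.1 hx

lemma err_le {a R p q t : ℝ} (ht : 0 < t) (hp : 0 ≤ p) (hp1 : p ≤ 1) (hR : R ^ 2 = q) :
    (a + R) * p ≤ t * (2 * a ^ 2 + 2 * q + 1) + p / (4 * t) := by
  have h1 : (a + R) * p ≤ t * (a + R) ^ 2 + p ^ 2 / (4 * t) := by
    have : 0 ≤ (2 * t * (a + R) - p) ^ 2 / (4 * t) := by positivity
    have e : (2 * t * (a + R) - p) ^ 2 / (4 * t)
        = t * (a + R) ^ 2 - (a + R) * p + p ^ 2 / (4 * t) := by field_simp; ring
    linarith
  have h2 : p ^ 2 / (4 * t) ≤ p / (4 * t) := by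
    gcongr
    nlinarith
  have h3 : (a + R) ^ 2 ≤ 2 * a ^ 2 + 2 * q + 1 := by
    rw [← hR]; nlinarith [sq_nonneg (a - R)]
  linarith [mul_le_mul_of_nonneg_left h3 ht.le]

lemma integrable_avg_pathSum (hn : 0 < n) (b : ℝ) (P : Fin (L + 1) × Fin m ↪ Fin n) :
    Integrable (fun g => gAvg (wsum (pairCoef n b) g) fun x => pathSum P x g) (gauss (Edge n)) := by
  refine ((integrable_const (1:ℝ)).add ((sqSum_pow hn L).1.const_mul ((m:ℝ) ^ 2))).mono' ?_
    (ae_of_all _ fun g => ?_)
  · refine (Continuous.div₀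
      (continuous_finsetSum _ fun x _ => (continuous_wsum _ x).rexp.mul (continuous_pathSum P x))
      (continuous_finsetSum _ fun x _ => (continuous_wsum _ x).rexp)
      fun g => (sum_exp_pos _).ne').aestronglyMeasurable
  · rw [norm_eq_abs]
    refine (abs_gAvg_le fun x => abs_pathSum_le P x g).trans ?_
    have h0 : 0 ≤ sqSum g ^ L := pow_nonneg (Finset.sum_nonneg fun e _ => sq_nonneg _) L
    simp only [Pi.add_apply]
    nlinarith [sq_nonneg ((m:ℝ) * √(sqSum g ^ L) - 1), sq_sqrt h0]

/-- The path sums of one block decomposition. -/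
theorem block_ge {b D η s v : ℝ} (hL : 1 ≤ L) (hn : 0 < n) (hD : 1 ≤ D) (hη : 0 < η) (hη1 : η ≤ 1)
    (hb : 0 < b) (hm : 0 < m) (hDm : 1 ≤ D * m * b ^ 2) (hs : 0 ≤ s)
    (hv : b ^ 2 * Fintype.card (Edge n) ≤ v) (hv0 : 0 < v)
    (hsmall : (2 * ((1 - L * η) * m * ((m : ℝ) * b) ^ L) ^ 2
        + 2 * (m : ℝ) ^ 2 * (((n:ℝ) ^ 2) ^ L * evenMoment L) + 1) *
      (exp (-(s ^ 2) / (4 * v)) + exp (-(free n b - s)) *
        (2 ^ n * (exp (b ^ 2 * Fintype.card (Edge n) / 2) * (2 * L * exp (-(rate D η L * m))))))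
      ≤ 1 / 16)
    (P : Fin (L + 1) × Fin m ↪ Fin n) :
    (1 - L * η) * m * ((m : ℝ) * b) ^ L - 1 / 4
      ≤ ∫ g, (∑ f : Fin (L + 1) → Fin m, pathTerm b hL (pick P f) g) ∂gauss (Edge n) := by
  simp only [sum_pathTerm_pick b hL P]
  have hEp := integral_shortMass_le hD hη hη1 hb hm hDm hs hv hv0 P
  set a := (1 - L * η) * m * ((m : ℝ) * b) ^ L with ha
  set M := 2 * a ^ 2 + 2 * (m : ℝ) ^ 2 * (((n:ℝ) ^ 2) ^ L * evenMoment L) + 1 with hM
  have hM1 : 1 ≤ M := by
    have : 0 ≤ evenMoment L := integral_nonneg fun t => pow_nonneg (sq_nonneg t) _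
    have : 0 ≤ 2 * a ^ 2 + 2 * (m : ℝ) ^ 2 * (((n:ℝ) ^ 2) ^ L * evenMoment L) := by positivity
    linarith
  set t := 1 / (8 * M) with ht
  have ht0 : 0 < t := by positivity
  obtain ⟨hQi, hQ⟩ := sqSum_pow hn L
  have iR : Integrable (fun g => 2 * a ^ 2 + 2 * ((m : ℝ) ^ 2 * sqSum g ^ L) + 1) (gauss (Edge n)) :=
    ((integrable_const _).fun_add ((hQi.const_mul _).const_mul 2)).fun_add (integrable_const _)
  have hMint : ∫ g, 2 * a ^ 2 + 2 * ((m : ℝ) ^ 2 * sqSum g ^ L) + 1 ∂gauss (Edge n) ≤ M := by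
    have i1 := (hQi.const_mul ((m : ℝ) ^ 2)).const_mul 2
    rw [integral_add ((integrable_const _).fun_add i1) (integrable_const _),
      integral_add (integrable_const _) i1, hM]
    simp only [integral_const_mul, integral_const, probReal_univ, one_smul]
    linarith [mul_le_mul_of_nonneg_left hQ (by positivity : (0:ℝ) ≤ 2 * (m : ℝ) ^ 2)]
  have ip := integrable_shortMass b P a
  have ie : Integrable (fun g => t * (2 * a ^ 2 + 2 * ((m : ℝ) ^ 2 * sqSum g ^ L) + 1)
      + shortMass b P a g / (4 * t)) (gauss (Edge n)) :=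
    (iR.const_mul t).fun_add (ip.div_const _)
  have hpt : ∀ g, a - (t * (2 * a ^ 2 + 2 * ((m : ℝ) ^ 2 * sqSum g ^ L) + 1)
      + shortMass b P a g / (4 * t)) ≤ gAvg (wsum (pairCoef n b) g) fun x => pathSum P x g := by
    intro g
    have h0 : 0 ≤ sqSum g ^ L := pow_nonneg (Finset.sum_nonneg fun e _ => sq_nonneg _) L
    have hR : ((m:ℝ) * √(sqSum g ^ L)) ^ 2 = (m : ℝ) ^ 2 * sqSum g ^ L := by
      rw [mul_pow, sq_sqrt h0]
    linarith [le_avg_pathSum b P a g,
      err_le (a := a) ht0 (shortMass_mem b P a g).1 (shortMass_mem b P a g).2 hR]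
  refine le_trans ?_ (integral_mono ((integrable_const a).sub' ie) (integrable_avg_pathSum hn b P) hpt)
  rw [integral_sub (integrable_const _) ie, integral_add (iR.const_mul t) (ip.div_const _),
    integral_const_mul t, integral_div]
  simp only [integral_const, probReal_univ, one_smul]
  have h1 : t * M = 1 / 8 := by rw [ht]; field_simp
  have h2 : (∫ g, shortMass b P a g ∂gauss (Edge n)) / (4 * t)
      = 2 * (M * ∫ g, shortMass b P a g ∂gauss (Edge n)) := by rw [ht]; field_simp; ring
  have h3 := (mul_le_mul_of_nonneg_left hEp (zero_le_one.trans hM1)).trans hsmall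
  linarith [mul_le_mul_of_nonneg_left hMint ht0.le]

end Vale.Agent.P146
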