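import Vale.Agent.P146.Tilt
import Vale.Agent.P150.Cavity
import Vale.Agent.P150.Gap.Goe

/-!
Products of independent Gaussian layers with a positive mean: the sum over paths stays close to
its mean, except with exponentially small probability.
-/

open MeasureTheory ProbabilityTheory Real

namespace Vale.Agent.P146

open P150

/-- A layer of couplings between two blocks of `m` sites. -/
abbrev Lay (m : ℕ) := Fin m × Fin m

/-- Sums over paths through the layers, by endpoint. -/
def chain {m : ℕ} : (L : ℕ) → (Fin L × Lay m → ℝ) → Fin m → ℝ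
  | 0, _ => fun _ => 1
  | L + 1, h => fun y => ∑ x, chain L (fun p => h (p.1.castSucc, p.2)) x * h (Fin.last L, (x, y))

variable {m : ℕ}

@[fun_prop]
lemma continuous_chain : ∀ (L : ℕ) (y : Fin m), Continuous fun h : Fin L × Lay m → ℝ => chain L h y
  | 0, _ => continuous_const
  | L + 1, y => by
    simp only [chain]
    exact continuous_finsetSum _ fun x _ =>
      ((continuous_chain L x).comp (by fun_prop)).mul (continuous_apply _)

lemma sum_chain_mul : ∀ (L : ℕ) (h : Fin L × Lay m → ℝ) (f : Fin m → ℝ),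
    ∑ y, chain L h y * f y
      = ∑ b : Fin (L + 1) → Fin m, (∏ i : Fin L, h (i, (b i.castSucc, b i.succ))) * f (b (Fin.last L))
  | 0, h, f => by
    rw [← (Equiv.funUnique (Fin 1) (Fin m)).symm.sum_comp]
    simp [chain]
  | L + 1, h, f => by
    simp only [chain, Finset.sum_mul]
    rw [← (Fin.snocEquiv fun _ => Fin m).sum_comp, Fintype.sum_prod_type]
    conv_lhs => rw [Finset.sum_comm]
    conv_rhs => rw [Finset.sum_comm]
    have h1 := sum_chain_mul L (fun p => h (p.1.castSucc, p.2))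
      (fun x => ∑ y, h (Fin.last L, (x, y)) * f y)
    simp only [Finset.mul_sum] at h1
    simp only [mul_assoc]
    rw [h1]
    refine Finset.sum_congr rfl fun b _ => Finset.sum_congr rfl fun y _ => ?_
    rw [Fin.prod_univ_castSucc]
    have e : ∀ i : Fin L, (Fin.snoc b y : Fin (L + 2) → Fin m) i.castSucc.succ = b i.succ := fun i => by
      rw [Fin.succ_castSucc, Fin.snoc_castSucc]
    simp [Fin.snocEquiv, mul_assoc, e]

lemma chain_sq_le : ∀ (L : ℕ) (h : Fin L × Lay m → ℝ),
    ∑ y, chain L h y ^ 2 ≤ m * ∏ i, ∑ p, h (i, p) ^ 2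
  | 0, h => by simp [chain]
  | L + 1, h => by
    rw [Fin.prod_univ_castSucc, ← mul_assoc]
    refine le_trans ?_ (mul_le_mul_of_nonneg_right (chain_sq_le L (fun p => h (p.1.castSucc, p.2)))
      (Finset.sum_nonneg fun p _ => sq_nonneg _))
    simp only [chain]
    refine (Finset.sum_le_sum fun y _ => Finset.sum_mul_sq_le_sq_mul_sq Finset.univ _ _).trans_eq ?_
    rw [← Finset.mul_sum, Fintype.sum_prod_type, Finset.sum_comm (γ := Fin m)]

lemma abs_sum_chain_le (L : ℕ) (h : Fin L × Lay m → ℝ) :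
    |∑ y, chain L h y| ≤ m * sqrt (∏ i, ∑ p, h (i, p) ^ 2) := by
  rw [← sqrt_sq (Nat.cast_nonneg (α := ℝ) m), ← sqrt_mul (sq_nonneg _), ← sqrt_sq_eq_abs]
  refine sqrt_le_sqrt ((sq_sum_le_card_mul_sum_sq (s := Finset.univ)).trans ?_)
  rw [Finset.card_univ, Fintype.card_fin, sq (m : ℝ), mul_assoc]
  exact mul_le_mul_of_nonneg_left (chain_sq_le L h) (Nat.cast_nonneg m)

/-- The column sums `Σ_x w_x ξ(x, y)`. -/
def colSum (w : Fin m → ℝ) (ξ : Lay m → ℝ) (y : Fin m) : ℝ := ∑ x, w x * ξ (x, y)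

@[fun_prop]
lemma continuous_colSum {α : Type*} [TopologicalSpace α] {w : α → Fin m → ℝ} {ξ : α → Lay m → ℝ}
    (hw : Continuous w) (hξ : Continuous ξ) (y : Fin m) :
    Continuous fun a => colSum (w a) (ξ a) y := by
  unfold colSum; fun_prop

lemma colSum_total_tail (w : Fin m → ℝ) {s v : ℝ} (hs : 0 ≤ s) (hv : (m : ℝ) * ∑ x, w x ^ 2 ≤ v)
    (hv0 : 0 < v) :
    (gauss (Lay m)).real {ξ | ∑ y, colSum w ξ y ≤ -s} ≤ exp (-(s ^ 2) / (4 * v)) := by
  have e : ∀ ξ : Lay m → ℝ, ∑ y, colSum w ξ y = ∑ p : Lay m, w p.1 * ξ p := fun ξ => by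
    simp only [colSum]
    rw [Fintype.sum_prod_type, Finset.sum_comm]
  have hF : ∀ ξ ξ' : Lay m → ℝ, |(∑ p : Lay m, w p.1 * ξ p) - ∑ p : Lay m, w p.1 * ξ' p|
      ≤ ∑ p : Lay m, |w p.1| * |ξ p - ξ' p| := fun ξ ξ' => by
    rw [← Finset.sum_sub_distrib]
    refine (Finset.abs_sum_le_sum_abs _ _).trans_eq (Finset.sum_congr rfl fun p _ => ?_)
    rw [← mul_sub, abs_mul]
  have hc : ∑ p : Lay m, |w p.1| ^ 2 ≤ v := by
    refine le_trans (le_of_eq ?_) hv
    simp [Fintype.sum_prod_type, Finset.mul_sum]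
  have h := lip_lower_tail hF hc hv0 hs
  rw [integral_finsetSum _ fun p _ => (integrable_eval p).const_mul _] at h
  have h0 : ∀ p : Lay m, ∫ ξ, w p.1 * ξ p ∂gauss (Lay m) = 0 := fun p => by
    have : ∫ ξ, ξ p ∂gauss (Lay m) = 0 :=
      (integral_comp_mp (measurePreserving_eval (fun _ : Lay m => gaussianReal 0 1) p)
        (F := fun t => t) aestronglyMeasurable_id).trans integral_id_gaussianReal
    rw [integral_const_mul, this, mul_zero]
  simp only [h0, Finset.sum_const_zero, zero_sub] at h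
  simpa only [e] using h

lemma colSum_sq_tail (w : Fin m → ℝ) :
    (gauss (Lay m)).real {ξ | 4 * m * ∑ x, w x ^ 2 < ∑ y, colSum w ξ y ^ 2} ≤ exp (-(m : ℝ) / 2) := by
  set W := ∑ x, w x ^ 2 with hW
  rcases (Finset.sum_nonneg fun x _ => sq_nonneg (w x) : 0 ≤ W).eq_or_lt with h0 | h0
  · have hw : ∀ x, w x = 0 := fun x => by
      have := (Finset.sum_eq_zero_iff_of_nonneg fun x _ => sq_nonneg (w x)).1 h0.symm x
        (Finset.mem_univ x)
      simpa using this
    have hW0 : W = 0 := h0.symm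
    simp [colSum, hw, hW0, exp_nonneg]
  have hWne : W ≠ 0 := h0.ne'
  set a : ℝ := 1 / (4 * W) with ha
  set r : ℝ := sqrt (2 * a) with hr
  have hr2 : r ^ 2 = 2 * a := sq_sqrt (by positivity)
  have hmgf : ∀ z : ℝ, ∫ t, exp (t * z) ∂gaussianReal 0 1 = exp (z ^ 2 / 2) := fun z => by
    have := congrFun (mgf_id_gaussianReal (μ := 0) (v := 1)) z
    simp [mgf] at this
    simpa [mul_comm] using this
  set Φ : (Lay m → ℝ) × (Fin m → ℝ) → ℝ := fun q => exp (∑ y, q.2 y * (r * colSum w q.1 y)) with hΦ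
  have hinner : ∀ ξ, ∫ t, Φ (ξ, t) ∂gauss (Fin m) = exp (a * ∑ y, colSum w ξ y ^ 2) := fun ξ => by
    simp only [hΦ, gauss_mgf]
    congr 1
    rw [Finset.sum_div, Finset.mul_sum]
    refine Finset.sum_congr rfl fun y _ => ?_
    rw [mul_pow, hr2]; ring
  have houter : ∀ t, Integrable (fun ξ => Φ (ξ, t)) (gauss (Lay m)) ∧
      ∫ ξ, Φ (ξ, t) ∂gauss (Lay m) = ∏ y, exp (1 / 4 * t y ^ 2) := fun t => by
    have e : (fun ξ => Φ (ξ, t)) = fun ξ => exp (∑ p : Lay m, ξ p * (t p.2 * r * w p.1)) := by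
      funext ξ
      simp only [hΦ, colSum, Fintype.sum_prod_type, Finset.mul_sum]
      rw [Finset.sum_comm]
      congr 1
      exact Finset.sum_congr rfl fun x _ => Finset.sum_congr rfl fun y _ => by ring
    refine ⟨e ▸ integrable_gauss_exp _, ?_⟩
    rw [e, gauss_mgf, ← exp_sum]
    congr 1
    rw [Fintype.sum_prod_type, Finset.sum_comm, Finset.sum_div]
    refine Finset.sum_congr rfl fun y _ => ?_
    simp only [mul_pow, hr2, ← Finset.mul_sum]
    rw [← hW, ha]
    field_simp
  have hq : Integrable (fun t : ℝ => exp (1 / 4 * t ^ 2)) (gaussianReal 0 1) ∧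
      ∫ t, exp (1 / 4 * t ^ 2) ∂gaussianReal 0 1 = sqrt 2 :=
    ⟨Gap.integrable_exp_sq (by norm_num), by
      rw [Gap.integral_exp_sq (by norm_num), ← sqrt_inv]; norm_num⟩
  have hint : Integrable Φ ((gauss (Lay m)).prod (gauss (Fin m))) := by
    rw [integrable_prod_iff' (Continuous.aestronglyMeasurable (by fun_prop))]
    refine ⟨ae_of_all _ fun t => (houter t).1, ?_⟩
    have e : ∀ t, ∫ ξ, ‖Φ (ξ, t)‖ ∂gauss (Lay m) = ∏ y, exp (1 / 4 * t y ^ 2) := fun t => by
      rw [← (houter t).2]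
      exact integral_congr_ae (ae_of_all _ fun ξ => abs_of_pos (exp_pos _))
    simp only [e]
    exact Integrable.fintype_prod fun _ => hq.1
  have hE : ∫ ξ, exp (a * ∑ y, colSum w ξ y ^ 2) ∂gauss (Lay m) = sqrt 2 ^ m := by
    simp only [← hinner]
    rw [integral_integral_swap hint]
    simp only [(houter _).2]
    rw [gauss, integral_fintype_prod_eq_prod (fun _ : Fin m => fun t => exp (1 / 4 * t ^ 2)),
      Finset.prod_congr rfl fun _ _ => hq.2, Finset.prod_const, Finset.card_univ, Fintype.card_fin]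
  have hi : Integrable (fun ξ => exp (a * ∑ y, colSum w ξ y ^ 2)) (gauss (Lay m)) := by
    simp only [← hinner]; exact hint.integral_prod_left
  have hM := mul_meas_ge_le_integral_of_nonneg (μ := gauss (Lay m))
    (f := fun ξ => exp (a * ∑ y, colSum w ξ y ^ 2)) (ae_of_all _ fun ξ => (exp_pos _).le) hi (exp m)
  have hset : {ξ | 4 * m * W < ∑ y, colSum w ξ y ^ 2}
      ⊆ {ξ | exp m ≤ exp (a * ∑ y, colSum w ξ y ^ 2)} := fun ξ hξ => by
    simp only [Set.mem_ofPred_eq, exp_le_exp] at hξ ⊢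
    rw [ha, div_mul_eq_mul_div, one_mul, le_div_iff₀ (by positivity)]
    linarith
  have h := ((mul_le_mul_of_nonneg_left (measureReal_mono hset) (exp_pos _).le).trans hM).trans_eq hE
  rw [mul_comm, ← le_div_iff₀ (exp_pos _)] at h
  refine h.trans ?_
  have h2 : sqrt 2 ≤ exp (1 / 2) := by
    rw [sqrt_le_left (exp_pos _).le, ← exp_nat_mul]
    have := add_one_le_exp (1 : ℝ)
    norm_num
    linarith
  calc sqrt 2 ^ m / exp m ≤ exp (1 / 2) ^ m / exp m := by gcongr
    _ = exp (-(m : ℝ) / 2) := by rw [← exp_nat_mul, ← exp_sub]; ring_nf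

/-- The rate of the tail bound for `L` layers. -/
noncomputable def rate (D η : ℝ) (L : ℕ) : ℝ := η ^ 2 / (4 * (2 + 8 * D) ^ L * D)

/-- Shift every coupling by `θ`. -/
def shiftBy {α : Type*} (θ : ℝ) (ξ : α → ℝ) : α → ℝ := fun p => θ + ξ p

/-- The good event: the path sum is at least its mean up to a fraction, and the vector is bounded. -/
def Good (D η θ : ℝ) (L : ℕ) (ξ : Fin L × Lay m → ℝ) : Prop :=
  (1 - L * η) * m * ((m : ℝ) * θ) ^ L ≤ ∑ y, chain L (shiftBy θ ξ) y ∧
    ∑ y, chain L (shiftBy θ ξ) y ^ 2 ≤ (2 + 8 * D) ^ L * m * ((m : ℝ) * θ) ^ (2 * L)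

/-- Split off the last layer. -/
def splitLay (L : ℕ) : (Fin L × Lay m) ⊕ Lay m ≃ Fin (L + 1) × Lay m where
  toFun := Sum.elim (fun p => (p.1.castSucc, p.2)) (fun p => (Fin.last L, p))
  invFun q := Fin.lastCases (Sum.inr q.2) (fun i => Sum.inl (i, q.2)) q.1
  left_inv := by rintro (⟨i, p⟩ | p) <;> simp
  right_inv := by
    rintro ⟨i, p⟩
    cases i using Fin.lastCases <;> simp

theorem chain_tail {D η θ : ℝ} (hD : 1 ≤ D) (hη : 0 < η) (hη1 : η ≤ 1) (hθ : 0 < θ) (hm : 0 < m)
    (hDm : 1 ≤ D * m * θ ^ 2) : ∀ L : ℕ,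
    (gauss (Fin L × Lay m)).real {ξ | ¬ Good D η θ L ξ} ≤ 2 * L * exp (-(rate D η L * m))
  | 0 => by simp [Good, chain]
  | L + 1 => by
    have hm' : (0 : ℝ) < m := Nat.cast_pos.2 hm
    set C := (2 + 8 * D) ^ L with hC
    set P := ((m : ℝ) * θ) ^ L with hP
    have hC0 : 0 < C := by positivity
    have hC1 : 1 ≤ C := one_le_pow₀ (by linarith)
    have hP0 : 0 < P := by positivity
    set ε := exp (-(rate D η (L + 1) * m)) with hε
    have hrm : rate D η (L + 1) ≤ rate D η L := by
      unfold rate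
      gcongr
      · linarith
      · omega
    have hr2 : rate D η (L + 1) ≤ 1 / 2 := by
      unfold rate
      rw [div_le_iff₀ (by positivity)]
      have h1 : 1 ≤ (2 + 8 * D) ^ (L + 1) := one_le_pow₀ (by linarith)
      have : η ^ 2 ≤ 1 := pow_le_one₀ hη.le hη1
      nlinarith
    -- the last layer, given a good vector
    have hstep : ∀ ξ : Fin L × Lay m → ℝ, Good D η θ L ξ →
        (gauss (Lay m)).real
            ({ζ | ∑ y, colSum (chain L (shiftBy θ ξ)) ζ y ≤ -(η * m * ((m : ℝ) * θ) * P)} ∪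
              {ζ | 4 * m * ∑ x, chain L (shiftBy θ ξ) x ^ 2 <
                ∑ y, colSum (chain L (shiftBy θ ξ)) ζ y ^ 2}) ≤ 2 * ε := by
      intro ξ hξ
      refine (measureReal_union_le _ _).trans ?_
      rw [two_mul]
      refine add_le_add ((colSum_total_tail _ (v := C * m ^ 2 * P ^ 2) (by positivity) ?_
        (by positivity)).trans (exp_le_exp.2 ?_))
        ((colSum_sq_tail _).trans (exp_le_exp.2 ?_))
      · have := mul_le_mul_of_nonneg_left hξ.2 hm'.le
        refine this.trans_eq ?_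
        rw [hP, hC, ← pow_mul, mul_comm L 2]; ring
      · unfold rate
        rw [neg_div, neg_le_neg_iff, div_mul_eq_mul_div, div_le_div_iff₀ (by positivity) (by positivity)]
        have h1 : C ≤ (2 + 8 * D) ^ (L + 1) := by
          rw [pow_succ]; exact le_mul_of_one_le_right hC0.le (by linarith)
        calc η ^ 2 * ↑m * (4 * (C * ↑m ^ 2 * P ^ 2)) = η ^ 2 * m ^ 3 * P ^ 2 * (4 * C) * 1 := by ring
          _ ≤ η ^ 2 * m ^ 3 * P ^ 2 * (4 * (2 + 8 * D) ^ (L + 1)) * (D * m * θ ^ 2) := by gcongr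
          _ = (η * ↑m * (↑m * θ) * P) ^ 2 * (4 * (2 + 8 * D) ^ (L + 1) * D) := by ring
      · rw [neg_div, neg_le_neg_iff]
        calc rate D η (L + 1) * m ≤ 1 / 2 * m := by gcongr
          _ = m / 2 := by ring
    -- a good vector and a good layer give a good vector
    set Bad : (Fin L × Lay m → ℝ) → Set (Lay m → ℝ) := fun ξ =>
      {ζ | ∑ y, colSum (chain L (shiftBy θ ξ)) ζ y ≤ -(η * m * ((m : ℝ) * θ) * P)} ∪
        {ζ | 4 * m * ∑ x, chain L (shiftBy θ ξ) x ^ 2 <
          ∑ y, colSum (chain L (shiftBy θ ξ)) ζ y ^ 2} with hBad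
    have hgood : ∀ ξ ζ, Good D η θ L ξ → ζ ∉ Bad ξ →
        Good D η θ (L + 1) (fun q => Sum.elim ξ ζ ((splitLay L).symm q)) := by
      intro ξ ζ hξ hζ
      simp only [hBad, Set.mem_union, Set.mem_ofPred_eq, not_or, not_le, not_lt] at hζ
      obtain ⟨hS, hQ⟩ := hξ
      set w := chain L (shiftBy θ ξ) with hw
      have hnext : ∀ y, chain (L + 1) (shiftBy θ fun q => Sum.elim ξ ζ ((splitLay L).symm q)) y
          = θ * (∑ x, w x) + colSum w ζ y := by
        intro y
        have e1 : (fun p : Fin L × Lay m => shiftBy θ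
            (fun q => Sum.elim ξ ζ ((splitLay L).symm q)) (p.1.castSucc, p.2)) = shiftBy θ ξ := by
          funext p; simp [shiftBy, splitLay]
        simp only [chain, e1, ← hw, colSum, Finset.mul_sum, ← Finset.sum_add_distrib]
        refine Finset.sum_congr rfl fun x _ => ?_
        simp [shiftBy, splitLay]; ring
      refine ⟨?_, ?_⟩
      · simp only [hnext, Finset.sum_add_distrib, Finset.sum_const, Finset.card_univ, Fintype.card_fin,
          nsmul_eq_mul]
        have h1 := mul_le_mul_of_nonneg_left hS (mul_pos hm' hθ).le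
        have h2 := hζ.1
        push_cast
        rw [pow_succ, ← hP] at *
        linear_combination h1 + h2.le
      · simp only [hnext]
        have hS2 : (∑ x, w x) ^ 2 ≤ m * ∑ x, w x ^ 2 := by
          simpa using sq_sum_le_card_mul_sum_sq (s := Finset.univ) (f := w)
        calc ∑ y, (θ * (∑ x, w x) + colSum w ζ y) ^ 2
            ≤ ∑ y, (2 * (θ * ∑ x, w x) ^ 2 + 2 * colSum w ζ y ^ 2) :=
              Finset.sum_le_sum fun y _ => by nlinarith [sq_nonneg (θ * (∑ x, w x) - colSum w ζ y)]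
          _ = 2 * (m * θ ^ 2 * (∑ x, w x) ^ 2) + 2 * ∑ y, colSum w ζ y ^ 2 := by
              rw [Finset.sum_add_distrib, Finset.sum_const, Finset.card_univ, Fintype.card_fin,
                nsmul_eq_mul, ← Finset.mul_sum]
              ring
          _ ≤ 2 * (m * θ ^ 2 * (m * ∑ x, w x ^ 2)) + 2 * (4 * m * ∑ x, w x ^ 2) := by
              gcongr; exact hζ.2
          _ ≤ (2 + 8 * D) * ((m : ℝ) * θ) ^ 2 * ∑ x, w x ^ 2 := by
              have : (m : ℝ) * 1 ≤ m * (D * m * θ ^ 2) := by gcongr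
              have := mul_le_mul_of_nonneg_right this
                (Finset.sum_nonneg fun x _ => sq_nonneg (w x) : (0 : ℝ) ≤ ∑ x, w x ^ 2)
              linear_combination 8 * this
          _ ≤ (2 + 8 * D) * ((m : ℝ) * θ) ^ 2 * (C * m * ((m : ℝ) * θ) ^ (2 * L)) := by gcongr
          _ = _ := by rw [hC, mul_add, mul_one, pow_add, pow_succ]; ring
    -- combine
    set ρ : (Fin (L + 1) × Lay m → ℝ) → (Fin L × Lay m → ℝ) × (Lay m → ℝ) :=
      fun g => (fun p => g (splitLay L (.inl p)), fun p => g (splitLay L (.inr p))) with hρ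
    have hmp : MeasurePreserving ρ (gauss (Fin (L + 1) × Lay m))
        ((gauss (Fin L × Lay m)).prod (gauss (Lay m))) :=
      (measurePreserving_sumPiEquivProdPi fun _ : (Fin L × Lay m) ⊕ Lay m => gaussianReal 0 1).comp
        (gauss_reindex (splitLay L))
    set B : Set ((Fin L × Lay m → ℝ) × (Lay m → ℝ)) :=
      {q | Good D η θ L q.1 ∧ q.2 ∈ Bad q.1} with hB
    have hGm : MeasurableSet {ξ : Fin L × Lay m → ℝ | Good D η θ L ξ} := by
      show MeasurableSet ({ξ : Fin L × Lay m → ℝ |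
          (1 - L * η) * m * ((m : ℝ) * θ) ^ L ≤ ∑ y, chain L (shiftBy θ ξ) y} ∩
        {ξ | ∑ y, chain L (shiftBy θ ξ) y ^ 2 ≤ (2 + 8 * D) ^ L * m * ((m : ℝ) * θ) ^ (2 * L)})
      unfold shiftBy
      exact (isClosed_le continuous_const (by fun_prop)).measurableSet.inter
        (isClosed_le (by fun_prop) continuous_const).measurableSet
    have hBm : MeasurableSet B := by
      have hB' : B = Prod.fst ⁻¹' {ξ | Good D η θ L ξ} ∩
          ({q | ∑ y, colSum (chain L (shiftBy θ q.1)) q.2 y ≤ -(η * m * ((m : ℝ) * θ) * P)} ∪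
            {q | 4 * m * ∑ x, chain L (shiftBy θ q.1) x ^ 2 <
              ∑ y, colSum (chain L (shiftBy θ q.1)) q.2 y ^ 2}) := rfl
      rw [hB']
      refine (measurable_fst hGm).inter (MeasurableSet.union ?_ ?_)
      · exact (isClosed_le (by unfold shiftBy; fun_prop) continuous_const).measurableSet
      · exact (isOpen_lt (by unfold shiftBy; fun_prop) (by unfold shiftBy; fun_prop)).measurableSet
    have hsub : {g | ¬ Good D η θ (L + 1) g}
        ⊆ ρ ⁻¹' ({ξ | ¬ Good D η θ L ξ} ×ˢ Set.univ ∪ B) := by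
      intro g hg
      by_contra hcon
      simp only [Set.mem_preimage, Set.mem_union, Set.mem_prod, Set.mem_univ, and_true,
        Set.mem_ofPred_eq, hB, not_or, not_not, not_and] at hcon
      refine hg ?_
      have := hgood _ _ hcon.1 (hcon.2 hcon.1)
      convert this using 2 with q
      obtain ⟨q, rfl⟩ := (splitLay L).surjective q
      rw [Equiv.symm_apply_apply]
      cases q <;> rfl
    have hBle : ((gauss (Fin L × Lay m)).prod (gauss (Lay m))).real B ≤ 2 * ε := by
      rw [measureReal_def]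
      refine ENNReal.toReal_le_of_le_ofReal (by positivity) ?_
      rw [Measure.prod_apply hBm]
      refine (lintegral_mono (g := fun _ => ENNReal.ofReal (2 * ε)) fun ξ => ?_).trans (by simp)
      by_cases hξ : Good D η θ L ξ
      · refine le_trans (measure_mono (t := Bad ξ) fun ζ hζ => hζ.2) ?_
        rw [← ofReal_measureReal]
        exact ENNReal.ofReal_le_ofReal (hstep ξ hξ)
      · simp [hB, hξ]
    calc (gauss (Fin (L + 1) × Lay m)).real {g | ¬ Good D η θ (L + 1) g}
        ≤ (gauss (Fin (L + 1) × Lay m)).real (ρ ⁻¹' ({ξ | ¬ Good D η θ L ξ} ×ˢ Set.univ ∪ B)) :=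
          measureReal_mono hsub
      _ = ((gauss (Fin L × Lay m)).prod (gauss (Lay m))).real ({ξ | ¬ Good D η θ L ξ} ×ˢ Set.univ ∪ B) := by
          rw [measureReal_def, measureReal_def, hmp.measure_preimage
            (((show MeasurableSet {ξ | ¬ Good D η θ L ξ} from hGm.compl).prod MeasurableSet.univ).union
              hBm).nullMeasurableSet]
      _ ≤ (gauss (Fin L × Lay m)).real {ξ | ¬ Good D η θ L ξ} + 2 * ε := by
          refine (measureReal_union_le _ _).trans (add_le_add ?_ hBle)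
          rw [measureReal_prod_prod, probReal_univ, mul_one]
      _ ≤ 2 * L * exp (-(rate D η L * m)) + 2 * ε := by
          gcongr; exact chain_tail hD hη hη1 hθ hm hDm L
      _ ≤ 2 * L * ε + 2 * ε := by
          gcongr
          rw [hε]
          gcongr
      _ = _ := by push_cast; ring

end Vale.Agent.P146
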