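import Vale.Agent.P146.Chain
import Mathlib.Probability.Moments.Variance

/-!
The projection of the free energy on the monomials of the cycles of the complete graph: an
orthogonality bound from below for the variance, and the coefficient as a correlation.
-/

open MeasureTheory ProbabilityTheory Real Finset
open scoped Fin.NatCast

namespace Vale.Agent.P146

open P150

variable {n : ℕ}

/-- The edge between two distinct sites. -/
def eo (i j : Fin n) (h : i ≠ j) : Edge n :=
  if hlt : i < j then ⟨(i, j), hlt⟩ else ⟨(j, i), lt_of_le_of_ne (not_lt.1 hlt) h.symm⟩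

lemma pairSpin_eo (x : Conf n) {i j : Fin n} (h : i ≠ j) :
    pairSpin x (eo i j h) = spin x i * spin x j := by
  unfold eo pairSpin
  split_ifs <;> ring

lemma eo_eq {i j k l : Fin n} {h : i ≠ j} {h' : k ≠ l} (he : eo i j h = eo k l h') :
    i = k ∧ j = l ∨ i = l ∧ j = k := by
  unfold eo at he
  split_ifs at he <;> simp only [Subtype.mk.injEq, Prod.mk.injEq] at he <;> tauto

lemma cyc_ne {L : ℕ} (hL : 1 ≤ L) (k : Fin (L + 1)) : k ≠ k + 1 := by
  intro h
  have h1 : (1 : Fin (L + 1)) = 0 := by
    simpa [eq_comm] using h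
  have := congrArg Fin.val h1
  simp [Nat.mod_eq_of_lt (show 1 < L + 1 by omega)] at this

/-- The edges of the cycle through the sites of `c`. -/
def cyc {L : ℕ} (hL : 1 ≤ L) (c : Fin (L + 1) ↪ Fin n) (k : Fin (L + 1)) : Edge n :=
  eo (c k) (c (k + 1)) (c.injective.ne (cyc_ne hL k))

lemma cyc_injective {L : ℕ} (hL : 2 ≤ L) (c : Fin (L + 1) ↪ Fin n) :
    Function.Injective (cyc (show 1 ≤ L by omega) c) := by
  intro k l h
  rcases eo_eq h with ⟨h1, -⟩ | ⟨h1, h2⟩
  · exact c.injective h1
  · have h3 := c.injective h1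
    have h4 := c.injective h2
    rw [h3] at h4
    have h5 : ((1 : Fin (L + 1)) + 1) = 0 := by
      rw [add_assoc] at h4
      simpa using h4
    have := congrArg Fin.val h5
    simp [Fin.val_add, Nat.mod_eq_of_lt (show 1 < L + 1 by omega),
      Nat.mod_eq_of_lt (show 1 + 1 < L + 1 by omega)] at this

/-- The edge set of a cycle. -/
noncomputable def cset {L : ℕ} (hL : 1 ≤ L) (c : Fin (L + 1) ↪ Fin n) : Finset (Edge n) :=
  univ.image (cyc hL c)

/-- A product of coordinates. -/
noncomputable def mono (S : Finset (Edge n)) (g : Edge n → ℝ) : ℝ := ∏ e ∈ S, g e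

lemma card_cset {L : ℕ} (hL : 2 ≤ L) (c : Fin (L + 1) ↪ Fin n) :
    (cset (show 1 ≤ L by omega) c).card = L + 1 := by
  rw [cset, card_image_of_injective _ (cyc_injective hL c), card_univ, Fintype.card_fin]

lemma cset_determined {L : ℕ} (hL : 2 ≤ L) (c d : Fin (L + 1) ↪ Fin n)
    (hS : cset (show 1 ≤ L by omega) c = cset (show 1 ≤ L by omega) d)
    (h0 : c 0 = d 0) (h1 : c 1 = d 1) : c = d := by
  have key : ∀ j : ℕ, c (j : Fin (L + 1)) = d (j : Fin (L + 1)) ∧
      c ((j : Fin (L + 1)) + 1) = d ((j : Fin (L + 1)) + 1) := by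
    intro j
    induction j with
    | zero => exact ⟨by simpa using h0, by simpa using h1⟩
    | succ j ih =>
      push_cast
      set k : Fin (L + 1) := (j : Fin (L + 1))
      refine ⟨ih.2, ?_⟩
      have hm : cyc (show 1 ≤ L by omega) c (k + 1) ∈ cset (show 1 ≤ L by omega) d :=
        hS ▸ mem_image_of_mem _ (mem_univ _)
      obtain ⟨l, -, hl⟩ := mem_image.1 hm
      rcases eo_eq hl.symm with ⟨e1, e2⟩ | ⟨e1, e2⟩
      · rw [ih.2] at e1
        rw [e2, d.injective e1]
      · rw [ih.2] at e1
        have e3 := d.injective e1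
        have : l = k := add_right_cancel e3.symm
        rw [this, ← ih.1] at e2
        have h5 := c.injective e2
        have h6 : ((1 : Fin (L + 1)) + 1) = 0 := by
          rw [add_assoc] at h5
          simpa using h5
        have := congrArg Fin.val h6
        simp [Fin.val_add, Nat.mod_eq_of_lt (show 1 < L + 1 by omega),
          Nat.mod_eq_of_lt (show 1 + 1 < L + 1 by omega)] at this
  ext k
  have := (key k.val).1
  rw [Fin.cast_val_eq_self] at this
  exact congrArg Fin.val this

lemma card_fibre_le {L : ℕ} (hL : 2 ≤ L) (c : Fin (L + 1) ↪ Fin n) :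
    (univ.filter fun d => cset (show 1 ≤ L by omega) c = cset (show 1 ≤ L by omega) d).card
      ≤ 2 * (L + 1) := by
  set hL1 : 1 ≤ L := by omega
  have hsub : ∀ d ∈ univ.filter (fun d => cset hL1 c = cset hL1 d),
      (d 0, d 1) ∈ (univ.image fun k => (c k, c (k + 1))) ∪ univ.image fun k => (c (k + 1), c k) := by
    intro d hd
    have hm : cyc hL1 d 0 ∈ cset hL1 c :=
      (mem_filter.1 hd).2 ▸ mem_image_of_mem _ (mem_univ _)
    obtain ⟨k, -, hk⟩ := mem_image.1 hm
    rcases eo_eq hk with ⟨e1, e2⟩ | ⟨e1, e2⟩ <;> rw [zero_add] at *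
    · exact mem_union_left _ (mem_image.2 ⟨k, mem_univ _, Prod.ext e1 e2⟩)
    · exact mem_union_right _ (mem_image.2 ⟨k, mem_univ _, Prod.ext e2 e1⟩)
  refine (card_le_card_of_injOn (fun d : Fin (L + 1) ↪ Fin n => (d 0, d 1)) (fun d hd => hsub d hd)
    ?_).trans
    ((card_union_le _ _).trans ?_)
  · intro a ha b hb hab
    have hab' := Prod.mk.inj hab
    exact cset_determined hL a b (((mem_filter.1 ha).2).symm.trans (mem_filter.1 hb).2) hab'.1 hab'.2
  · refine (add_le_add card_image_le card_image_le).trans ?_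
    simp [two_mul]

lemma prod_ite_mono (S : Finset (Edge n)) (g : Edge n → ℝ) :
    mono S g = ∏ e, (if e ∈ S then g e else 1) := by
  rw [Fintype.prod_ite_mem]; rfl

lemma integral_sq_gauss : ∫ t : ℝ, t ^ 2 ∂gaussianReal 0 1 = 1 := by
  have h := variance_eq_integral (μ := gaussianReal 0 1) (X := id) aemeasurable_id
  rw [variance_id_gaussianReal] at h
  simpa [integral_id_gaussianReal] using h.symm

lemma integrable_mono_mul (S T : Finset (Edge n)) :
    Integrable (fun g => mono S g * mono T g) (gauss (Edge n)) := by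
  simp only [prod_ite_mono, ← prod_mul_distrib]
  refine Integrable.fintype_prod (f := fun e t =>
    (if e ∈ S then t else 1) * if e ∈ T then t else 1) fun e => ?_
  have h1 : Integrable (fun t : ℝ => t) (gaussianReal 0 1) :=
    (memLp_id_gaussianReal 1).integrable le_rfl
  have h2 : Integrable (fun t : ℝ => t ^ 2) (gaussianReal 0 1) :=
    (memLp_id_gaussianReal 2).integrable_sq
  split_ifs
  · simpa [sq] using h2
  · simpa using h1
  · simpa using h1
  · exact integrable_const _

lemma integral_mono_mul (S T : Finset (Edge n)) :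
    ∫ g, mono S g * mono T g ∂gauss (Edge n) = if S = T then 1 else 0 := by
  simp only [prod_ite_mono, ← prod_mul_distrib, gauss]
  rw [integral_fintype_prod_eq_prod (fun e t =>
    (if e ∈ S then t else 1) * if e ∈ T then t else 1)]
  have h : ∀ e : Edge n, ∫ t : ℝ, (if e ∈ S then t else 1) * (if e ∈ T then t else 1)
      ∂gaussianReal 0 1 = if (e ∈ S ↔ e ∈ T) then 1 else 0 := by
    intro e
    by_cases hS : e ∈ S <;> by_cases hT : e ∈ T
    · simp only [hS, hT, if_true, iff_self, ← sq]
      exact integral_sq_gauss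
    · simp [hS, hT]
    · simp [hS, hT]
    · simp [hS, hT]
  simp only [h]
  split_ifs with hST
  · subst hST; simp
  · obtain ⟨e, he⟩ : ∃ e, ¬(e ∈ S ↔ e ∈ T) := not_forall.1 fun hh => hST (Finset.ext hh)
    exact prod_eq_zero (mem_univ e) (if_neg he)

lemma integrable_mono (S : Finset (Edge n)) : Integrable (mono S) (gauss (Edge n)) := by
  have h := integrable_mono_mul S ∅
  simp only [show ∀ g, mono (∅ : Finset (Edge n)) g = 1 from fun g => prod_empty, mul_one] at h
  exact h

lemma integral_mono_eq_zero {S : Finset (Edge n)} (hS : S.Nonempty) :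
    ∫ g, mono S g ∂gauss (Edge n) = 0 := by
  simpa [mono, hS.ne_empty] using integral_mono_mul S ∅

/-- The correlation of a function with the cycles on `L + 1` sites. -/
noncomputable def cycCoef (F : (Edge n → ℝ) → ℝ) {L : ℕ} (hL : 1 ≤ L) : ℝ :=
  ∑ c : Fin (L + 1) ↪ Fin n, ∫ g, F g * mono (cset hL c) g ∂gauss (Edge n)

/-- The sum of the monomials of the cycles on `L + 1` sites. -/
noncomputable def cycSum {L : ℕ} (hL : 1 ≤ L) (g : Edge n → ℝ) : ℝ :=
  ∑ c : Fin (L + 1) ↪ Fin n, mono (cset hL c) g

lemma integrable_mul_mono {F : (Edge n → ℝ) → ℝ} {v : Edge n → ℝ}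
    (hF : ∀ g g', |F g - F g'| ≤ ∑ i, v i * |g i - g' i|) (S : Finset (Edge n)) :
    Integrable (fun g => F g * mono S g) (gauss (Edge n)) := by
  refine ((integrable_sq_of_coord_lip hF 0).add (integrable_mono_mul S S)).mono'
    ((continuous_of_coord_lip hF).aestronglyMeasurable.mul
      (by unfold mono; fun_prop : Continuous (mono S)).aestronglyMeasurable)
    (ae_of_all _ fun g => ?_)
  rw [norm_eq_abs, abs_mul]
  simp only [sub_zero, Pi.add_apply, ← sq, ← sq_abs (F g), ← sq_abs (mono S g)]
  nlinarith [sq_nonneg (|F g| - |mono S g|), abs_nonneg (F g), abs_nonneg (mono S g)]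

lemma integrable_cycSum_mul {L L' : ℕ} (hL : 1 ≤ L) (hL' : 1 ≤ L') :
    Integrable (fun g => cycSum (n := n) hL g * cycSum hL' g) (gauss (Edge n)) := by
  simp only [cycSum, sum_mul_sum]
  exact integrable_finsetSum _ fun c _ => integrable_finsetSum _ fun d _ => integrable_mono_mul _ _

lemma integral_cycSum_mul {L L' : ℕ} (hL : 1 ≤ L) (hL' : 1 ≤ L') :
    ∫ g, cycSum (n := n) hL g * cycSum hL' g ∂gauss (Edge n) =
      ∑ c : Fin (L + 1) ↪ Fin n, ∑ d : Fin (L' + 1) ↪ Fin n,
        if cset hL c = cset hL' d then 1 else 0 := by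
  simp only [cycSum, sum_mul_sum]
  rw [integral_finsetSum _ fun c _ => integrable_finsetSum _ fun d _ => integrable_mono_mul _ _]
  refine sum_congr rfl fun c _ => ?_
  rw [integral_finsetSum _ fun d _ => integrable_mono_mul _ _]
  exact sum_congr rfl fun d _ => integral_mono_mul _ _

lemma cycSum_orth {L L' : ℕ} (hL : 2 ≤ L) (hL' : 2 ≤ L') (h : L ≠ L') :
    ∫ g, cycSum (n := n) (show 1 ≤ L by omega) g * cycSum (show 1 ≤ L' by omega) g
      ∂gauss (Edge n) = 0 := by
  rw [integral_cycSum_mul]
  refine sum_eq_zero fun c _ => sum_eq_zero fun d _ => if_neg fun he => ?_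
  have := congrArg Finset.card he
  rw [card_cset hL, card_cset hL'] at this
  omega

lemma cycSum_sq_le {L : ℕ} (hL : 2 ≤ L) :
    ∫ g, cycSum (n := n) (show 1 ≤ L by omega) g * cycSum (show 1 ≤ L by omega) g ∂gauss (Edge n)
      ≤ 2 * ((L:ℝ) + 1) * Fintype.card (Fin (L + 1) ↪ Fin n) := by
  rw [integral_cycSum_mul]
  simp only [sum_boole]
  refine (sum_le_sum fun c _ => Nat.cast_le.2 (card_fibre_le hL c)).trans_eq ?_
  simp only [sum_const, card_univ, nsmul_eq_mul]
  push_cast
  ring

lemma var_ge_orthogonal {Ω : Type*} [MeasurableSpace Ω] (μ : Measure Ω) [IsProbabilityMeasure μ]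
    {F : Ω → ℝ} {K : ℕ} (T : Fin K → Ω → ℝ) (q : Fin K → ℝ) (hm : AEMeasurable F μ)
    (hF : Integrable F μ) (hF2 : Integrable (fun g => (F g - ∫ g, F g ∂μ) ^ 2) μ)
    (hT : ∀ j, Integrable (T j) μ) (hT0 : ∀ j, ∫ g, T j g ∂μ = 0)
    (hFT : ∀ j, Integrable (fun g => F g * T j g) μ)
    (hTT : ∀ j k, Integrable (fun g => T j g * T k g) μ)
    (horth : ∀ j k, j ≠ k → ∫ g, T j g * T k g ∂μ = 0) (hsq : ∀ j, ∫ g, T j g * T j g ∂μ ≤ q j) :
    ∑ j, (∫ g, F g * T j g ∂μ) ^ 2 / q j ≤ variance F μ := by
  set A : Fin K → ℝ := fun j => ∫ g, F g * T j g ∂μ with hA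
  set a : Fin K → ℝ := fun j => A j / q j with ha
  rw [variance_eq_integral hm]
  set M := ∫ g, F g ∂μ
  have hFT' : ∀ j, ∫ g, (F g - M) * T j g ∂μ = A j := fun j => by
    simp only [sub_mul]
    rw [integral_sub (hFT j) ((hT j).const_mul M), integral_const_mul, hT0, mul_zero, sub_zero]
  have hG : ∀ j, Integrable (fun g => a j * ((F g - M) * T j g)) μ := fun j => by
    simp only [sub_mul]
    exact ((hFT j).sub' ((hT j).const_mul M)).const_mul _
  have hU : ∀ j, Integrable (fun g => ∑ k, a j * a k * (T j g * T k g)) μ := fun j =>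
    integrable_finsetSum _ fun k _ => (hTT j k).const_mul _
  have i1 : Integrable (fun g => 2 * ∑ j, a j * ((F g - M) * T j g)) μ :=
    (integrable_finsetSum _ fun j _ => hG j).const_mul 2
  have key : 0 ≤ ∫ g, ((F g - M) ^ 2 - 2 * ∑ j, a j * ((F g - M) * T j g))
      + ∑ j, ∑ k, a j * a k * (T j g * T k g) ∂μ := by
    refine integral_nonneg fun g => le_of_le_of_eq (sq_nonneg ((F g - M) - ∑ j, a j * T j g)) ?_
    rw [sub_sq, sq (∑ j, a j * T j g), sum_mul_sum]
    congr 1
    · congr 1
      rw [mul_assoc, mul_sum]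
      congr 1
      exact sum_congr rfl fun j _ => by ring
    · exact sum_congr rfl fun j _ => sum_congr rfl fun k _ => by ring
  rw [integral_add (hF2.sub' i1) (integrable_finsetSum _ fun j _ => hU j), integral_sub hF2 i1,
    integral_const_mul, integral_finsetSum _ fun j _ => hG j,
    integral_finsetSum _ fun j _ => hU j] at key
  have h1 : ∀ j, ∫ g, a j * ((F g - M) * T j g) ∂μ = a j * A j := fun j => by
    rw [integral_const_mul, hFT']
  have h2 : ∀ j, ∫ g, ∑ k, a j * a k * (T j g * T k g) ∂μ ≤ a j * A j := fun j => by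
    rw [integral_finsetSum _ fun k _ => (hTT j k).const_mul _,
      sum_eq_single j (fun k _ hk => by rw [integral_const_mul, horth j k hk.symm, mul_zero])
        (by simp), integral_const_mul]
    refine (mul_le_mul_of_nonneg_left (hsq j) (mul_self_nonneg _)).trans_eq ?_
    by_cases h0 : q j = 0
    · simp [ha, h0]
    · rw [ha]; field_simp
  have h3 : ∑ j, a j * A j = ∑ j, A j ^ 2 / q j := sum_congr rfl fun j _ => by rw [ha]; ring
  simp only [h1] at key
  linarith [sum_le_sum fun j (_ : j ∈ univ) => h2 j]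

theorem var_ge_cycles {F : (Edge n → ℝ) → ℝ} {v : Edge n → ℝ}
    (hF : ∀ g g', |F g - F g'| ≤ ∑ i, v i * |g i - g' i|) (K : ℕ) :
    ∑ j : Fin K, cycCoef F (show 1 ≤ (j:ℕ) + 2 by omega) ^ 2 /
        (2 * ((j:ℕ) + 3) * (Fintype.card (Fin ((j:ℕ) + 3) ↪ Fin n)))
      ≤ variance F (gauss (Edge n)) := by
  set T : Fin K → (Edge n → ℝ) → ℝ := fun j => cycSum (show 1 ≤ (j:ℕ) + 2 by omega) with hTdef
  have hT : ∀ j, Integrable (T j) (gauss (Edge n)) := fun j =>
    integrable_finsetSum _ fun c _ => integrable_mono _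
  have hT0 : ∀ j, ∫ g, T j g ∂gauss (Edge n) = 0 := fun j => by
    simp only [hTdef, cycSum]
    rw [integral_finsetSum _ fun c _ => integrable_mono _]
    exact sum_eq_zero fun c _ => integral_mono_eq_zero (univ_nonempty.image _)
  have hFT : ∀ j, Integrable (fun g => F g * T j g) (gauss (Edge n)) := fun j => by
    simp only [hTdef, cycSum, mul_sum]
    exact integrable_finsetSum _ fun c _ => integrable_mul_mono hF _
  have hA : ∀ j : Fin K, cycCoef F (show 1 ≤ (j:ℕ) + 2 by omega)
      = ∫ g, F g * T j g ∂gauss (Edge n) := fun j => by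
    simp only [hTdef, cycCoef, cycSum, mul_sum]
    rw [integral_finsetSum _ fun c _ => integrable_mul_mono hF _]
  simp only [hA]
  refine var_ge_orthogonal (gauss (Edge n)) T _ (continuous_of_coord_lip hF).measurable.aemeasurable
    (integrable_of_coord_lip hF) (integrable_sq_of_coord_lip hF _) hT hT0 hFT
    (fun j k => integrable_cycSum_mul _ _)
    (fun j k hjk => cycSum_orth (by omega) (by omega) fun h => hjk (Fin.ext (by omega))) fun j => ?_
  refine (cycSum_sq_le (L := (j:ℕ) + 2) (by omega)).trans_eq ?_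
  push_cast
  ring

/-- Integration by parts for a function of linear growth with bounded derivative. -/
lemma ibp_linear {F F' : ℝ → ℝ} (hF : ∀ t, HasDerivAt F (F' t) t) (hc : Continuous F') {B : ℝ}
    (hB' : ∀ t, |F' t| ≤ B) :
    ∫ t, t * F t ∂gaussianReal 0 1 = ∫ t, F' t ∂gaussianReal 0 1 := by
  set p : ℝ → ℝ := fun t => gaussianPDFReal 0 1 t
  have hB : ∀ t, |F t| ≤ |F 0| + B * |t| := fun t => by
    have := Convex.norm_image_sub_le_of_norm_hasDerivWithin_le (fun x _ => (hF x).hasDerivWithinAt)
      (fun x _ => hB' x) convex_univ (Set.mem_univ 0) (Set.mem_univ t)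
    simp only [norm_eq_abs, sub_zero] at this
    linarith [abs_sub_abs_le_abs_sub (F t) (F 0)]
  have hcF : Continuous F := continuous_iff_continuousAt.2 fun t => (hF t).continuousAt
  have hd : ∀ t, HasDerivAt p (-t * p t) t := by
    intro t
    have hp : p = fun t => (√(2 * π))⁻¹ * exp (-t ^ 2 / 2) := funext fun t => by
      simp [p, gaussianPDFReal]
    rw [hp]
    exact (((hasDerivAt_pow 2 t).neg.div_const 2).exp.const_mul _).congr_deriv
      (by simp only [Pi.neg_apply]; push_cast; ring)
  have hconv : ∀ G : ℝ → ℝ, Integrable G (gaussianReal 0 1) → Integrable fun t => G t * p t := by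
    intro G hG
    rw [gaussianReal_of_var_ne_zero 0 one_ne_zero, integrable_withDensity_iff_integrable_smul'
      (measurable_gaussianPDF 0 1) (ae_of_all _ fun t => gaussianPDF_lt_top)] at hG
    refine hG.congr (ae_of_all _ fun t => ?_)
    simp [p, toReal_gaussianPDF, mul_comm]
  have h1 : Integrable (fun t : ℝ => t) (gaussianReal 0 1) :=
    (memLp_id_gaussianReal 1).integrable le_rfl
  have h2 : Integrable (fun t : ℝ => t ^ 2) (gaussianReal 0 1) :=
    (memLp_id_gaussianReal 2).integrable_sq
  have hiF : Integrable F (gaussianReal 0 1) :=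
    ((integrable_const |F 0|).add (h1.abs.const_mul B)).mono' hcF.aestronglyMeasurable
      (ae_of_all _ fun t => by simpa [norm_eq_abs] using hB t)
  have hitF : Integrable (fun t => F t * -t) (gaussianReal 0 1) :=
    ((h1.abs.const_mul |F 0|).add (h2.const_mul B)).mono' (by fun_prop)
      (ae_of_all _ fun t => by
        rw [norm_eq_abs, abs_mul, abs_neg, Pi.add_apply, ← sq_abs t, sq]
        calc |F t| * |t| ≤ (|F 0| + B * |t|) * |t| := mul_le_mul_of_nonneg_right (hB t) (abs_nonneg _)
          _ = _ := by ring)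
  have hiF' : Integrable F' (gaussianReal 0 1) :=
    Integrable.of_bound hc.aestronglyMeasurable B (ae_of_all _ fun t => hB' t)
  have i1 : Integrable fun t => F t * (-t * p t) := by
    simpa [mul_assoc] using hconv _ hitF
  have h := integral_mul_deriv_eq_deriv_mul_of_integrable (fun t _ => hF t) (fun t _ => hd t) i1
    (hconv _ hiF') (hconv _ hiF)
  rw [integral_gaussianReal_eq_integral_smul one_ne_zero,
    integral_gaussianReal_eq_integral_smul one_ne_zero]
  simp only [smul_eq_mul]
  calc ∫ t, gaussianPDFReal 0 1 t * (t * F t) = ∫ t, -(F t * (-t * p t)) := by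
        congr 1; funext t; simp only [p]; ring
    _ = ∫ t, F' t * p t := by rw [integral_neg, h, neg_neg]
    _ = _ := by congr 1; funext t; simp only [p]; ring

/-- The free energy at coupling strength `b`. -/
noncomputable def logZ (n : ℕ) (b : ℝ) (g : Edge n → ℝ) : ℝ := lse (wsum (pairCoef n b) g)

lemma logZ_lip (b : ℝ) (g g' : Edge n → ℝ) :
    |logZ n b g - logZ n b g'| ≤ ∑ e, |b| * |g e - g' e| := by
  refine abs_lse_sub_le fun x => ?_
  simp only [wsum, ← sum_sub_distrib, ← sub_mul]
  refine (abs_sum_le_sum_abs _ _).trans (sum_le_sum fun e _ => ?_)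
  rw [abs_mul, mul_comm |b|]
  exact mul_le_mul_of_nonneg_left (abs_pairCoef b e x) (abs_nonneg _)

/-- The path monomial times the correlation of its ends. -/
noncomputable def pathTerm (b : ℝ) {L : ℕ} (hL : 1 ≤ L) (c : Fin (L + 1) ↪ Fin n)
    (g : Edge n → ℝ) : ℝ :=
  (∏ i : Fin L, g (cyc hL c i.castSucc)) *
    gAvg (wsum (pairCoef n b) g) fun x => spin x (c (Fin.last L)) * spin x (c 0)

lemma integrable_pathTerm (b : ℝ) {L : ℕ} (hL : 2 ≤ L) (c : Fin (L + 1) ↪ Fin n) :
    Integrable (pathTerm b (show 1 ≤ L by omega) c) (gauss (Edge n)) := by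
  set hL1 : 1 ≤ L := by omega
  set S' := univ.image fun i : Fin L => cyc hL1 c i.castSucc
  have hp : ∀ g, mono S' g = ∏ i : Fin L, g (cyc hL1 c i.castSucc) := fun g => by
    rw [mono, prod_image]
    exact fun i _ j _ h => Fin.castSucc_injective _ (cyc_injective hL c h)
  refine (integrable_mono S').abs.mono' ?_ (ae_of_all _ fun g => ?_)
  · exact (by unfold pathTerm; fun_prop : Continuous (pathTerm b hL1 c)).aestronglyMeasurable
  · rw [norm_eq_abs, pathTerm, abs_mul, ← hp]
    refine mul_le_of_le_one_right (abs_nonneg _) (abs_gAvg_le fun x => ?_)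
    rw [abs_mul]
    refine mul_le_one₀ ?_ (abs_nonneg _) ?_ <;> (unfold spin; split_ifs <;> simp)

lemma integral_edge_update {F : (Edge n → ℝ) → ℝ} (hF : Integrable F (gauss (Edge n))) (e : Edge n) :
    ∫ g, F g ∂gauss (Edge n)
      = ∫ g, ∫ t, F (Function.update g e t) ∂gaussianReal 0 1 ∂gauss (Edge n) := by
  rw [integral_gauss_update hF e]
  refine integral_congr_ae (ae_of_all _ fun g => integral_congr_ae (ae_of_all _ fun t => ?_))
  refine congrArg F (funext fun d => ?_)
  by_cases hd : d = e
  · subst hd; simp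
  · simp [Function.update, hd]

lemma integral_logZ_cycle (b : ℝ) {L : ℕ} (hL : 2 ≤ L) (c : Fin (L + 1) ↪ Fin n) :
    ∫ g, logZ n b g * mono (cset (show 1 ≤ L by omega) c) g ∂gauss (Edge n)
      = b * ∫ g, pathTerm b (show 1 ≤ L by omega) c g ∂gauss (Edge n) := by
  set hL1 : 1 ≤ L := by omega
  have hinj := cyc_injective hL c
  set e₀ := cyc hL1 c (Fin.last L) with he₀
  have hm : ∀ g, mono (cset hL1 c) g = (∏ i : Fin L, g (cyc hL1 c i.castSucc)) * g e₀ := fun g => by
    rw [mono, cset, prod_image hinj.injOn, Fin.prod_univ_castSucc]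
  have hne : ∀ i : Fin L, cyc hL1 c i.castSucc ≠ e₀ := fun i h =>
    i.castSucc_lt_last.ne (hinj h)
  have hFc := continuous_of_coord_lip (logZ_lip (n := n) b)
  have hiFm : Integrable (fun g => logZ n b g * mono (cset hL1 c) g) (gauss (Edge n)) :=
    integrable_mul_mono (logZ_lip b) _
  have hspin : ∀ x : Conf n, pairSpin x e₀ = spin x (c (Fin.last L)) * spin x (c 0) := fun x => by
    rw [he₀, cyc, pairSpin_eo, Fin.last_add_one]
  have hiP := integrable_pathTerm b hL c
  rw [← integral_const_mul, integral_edge_update hiFm e₀,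
    integral_edge_update (hiP.const_mul b) e₀]
  refine integral_congr_ae (ae_of_all _ fun g => ?_)
  simp only [hm, pathTerm, Function.update_self]
  set Q := ∏ i : Fin L, g (cyc hL1 c i.castSucc)
  have hd : ∀ t, HasDerivAt (fun s => logZ n b (Function.update g e₀ s))
      (b * gAvg (wsum (pairCoef n b) (Function.update g e₀ t))
        fun x => spin x (c (Fin.last L)) * spin x (c 0)) t := by
    intro t
    have hw : ∀ x, HasDerivAt (fun s => wsum (pairCoef n b) (Function.update g e₀ s) x)
        (b * (spin x (c (Fin.last L)) * spin x (c 0))) t := fun x => by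
      have h1 : HasDerivAt (fun s => ∑ e, Function.update g e₀ s e * pairCoef n b e x)
          (∑ e, (if e = e₀ then 1 else 0) * pairCoef n b e x) t := by
        refine HasDerivAt.fun_sum fun e _ => HasDerivAt.mul_const ?_ _
        rcases eq_or_ne e e₀ with rfl | he
        · simpa only [Function.update_self, if_true] using hasDerivAt_id' t
        · simpa [Function.update_of_ne he, he] using hasDerivAt_const t (g e)
      refine h1.congr_deriv ?_
      simp [pairCoef, hspin]
    refine ((HasDerivAt.fun_sum fun x _ => (hw x).exp).log (sum_exp_pos _).ne').congr_deriv ?_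
    rw [gAvg, mul_div_assoc', mul_sum]
    congr 1
    exact sum_congr rfl fun x _ => by ring
  have hk := ibp_linear (B := |b|) hd
    (((continuous_gAvg_wsum _ _).comp (continuous_const.update e₀ continuous_id)).const_mul b)
    (fun t => by
      rw [abs_mul]
      refine mul_le_of_le_one_right (abs_nonneg _) (abs_gAvg_le fun x => ?_)
      rw [← hspin, abs_pairSpin])
  have hQ : ∀ t, ∏ i : Fin L, Function.update g e₀ t (cyc hL1 c i.castSucc) = Q := fun t =>
    prod_congr rfl fun i _ => Function.update_of_ne (hne i) _ _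
  simp only [hQ]
  calc ∫ t, logZ n b (Function.update g e₀ t) * (Q * t) ∂gaussianReal 0 1
      = Q * ∫ t, t * logZ n b (Function.update g e₀ t) ∂gaussianReal 0 1 := by
        rw [← integral_const_mul]; exact integral_congr_ae (ae_of_all _ fun t => by ring)
    _ = _ := by
        rw [hk, ← integral_const_mul]; exact integral_congr_ae (ae_of_all _ fun t => by ring)

end Vale.Agent.P146
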