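import Vale.Agent.P146.Cycles
import Vale.Agent.P150.Free

/-!
The free energy at high temperature is annealed up to an error of small order: second moment
method and concentration. By monotonicity it bounds the free energy above the critical point.
-/

open MeasureTheory ProbabilityTheory Real Finset Filter
open scoped Topology

namespace Vale.Agent.P146

open P150

variable {n : ℕ}

/-- The partition function at coupling strength `b`. -/
noncomputable def partZ (n : ℕ) (b : ℝ) (g : Edge n → ℝ) : ℝ :=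
  ∑ x, exp (wsum (pairCoef n b) g x)

lemma sum_pairCoef_sq (b : ℝ) (x : Conf n) :
    ∑ e, pairCoef n b e x ^ 2 = b ^ 2 * Fintype.card (Edge n) := by
  simp [pairCoef, mul_pow, pairSpin_sq, mul_comm]

lemma integrable_partZ (b : ℝ) : Integrable (partZ n b) (gauss (Edge n)) :=
  integrable_finsetSum _ fun _ _ => integrable_gauss_exp _

lemma integral_partZ (b : ℝ) :
    ∫ g, partZ n b g ∂gauss (Edge n) = 2 ^ n * exp (b ^ 2 * Fintype.card (Edge n) / 2) := by
  simp only [partZ, wsum]
  rw [integral_finsetSum _ fun x _ => integrable_gauss_exp _]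
  simp [gauss_mgf, sum_pairCoef_sq]

lemma sum_exp_overlap_le (x : Conf n) (a : ℝ) (ha : 0 ≤ a) (h1 : (a * n) < 1) :
    ∑ y : Conf n, exp (a * (∑ i, spin x i * spin y i) ^ 2 / 2) ≤ 2 ^ n * (√(1 - a * n))⁻¹ := by
  set r := √a
  have hr : r ^ 2 = a := sq_sqrt ha
  have hlin : ∀ z : ℝ, ∫ t, exp (t * z) ∂gaussianReal 0 1 = exp (z ^ 2 / 2) := fun z => by
    have := congrFun (mgf_id_gaussianReal (μ := 0) (v := 1)) z
    simp [mgf] at this
    simpa [mul_comm] using this
  have hint : ∀ z : ℝ, Integrable (fun t => exp (t * z)) (gaussianReal 0 1) := fun z => by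
    simpa [mul_comm] using integrable_exp_mul_gaussianReal z
  have he : ∀ y : Conf n, exp (a * (∑ i, spin x i * spin y i) ^ 2 / 2)
      = ∫ t, exp (t * (r * ∑ i, spin x i * spin y i)) ∂gaussianReal 0 1 := fun y => by
    rw [hlin, mul_pow, hr]
  simp only [he]
  rw [← integral_finsetSum _ fun y _ => hint _]
  have hpt : ∀ t : ℝ, ∑ y : Conf n, exp (t * (r * ∑ i, spin x i * spin y i))
      ≤ 2 ^ n * exp (a * n / 2 * t ^ 2) := by
    intro t
    have e : ∀ y : Conf n, exp (t * (r * ∑ i, spin x i * spin y i))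
        = ∏ i, exp (t * r * spin x i * if y i then 1 else -1) := fun y => by
      rw [← exp_sum, mul_sum, mul_sum]
      exact congrArg exp (Finset.sum_congr rfl fun i _ => by simp only [spin]; ring)
    simp only [e]
    rw [← Fintype.prod_sum fun i (s : Bool) => exp (t * r * spin x i * if s then 1 else -1)]
    refine (prod_le_prod (fun i _ => by positivity) fun i _ => ?_ :
      _ ≤ ∏ _i : Fin n, 2 * exp (a / 2 * t ^ 2)).trans_eq ?_
    · have h := cosh_le_exp_half_sq (t * r * spin x i)
      rw [cosh_eq] at h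
      have h' : (t * r * spin x i) ^ 2 / 2 = a / 2 * t ^ 2 := by
        have : spin x i ^ 2 = 1 := by unfold spin; split_ifs <;> norm_num
        rw [mul_pow, mul_pow, this, hr]; ring
      rw [h'] at h
      simp only [Fintype.sum_bool, Bool.false_eq_true, if_false, if_true, mul_one, mul_neg]
      linarith
    · rw [prod_const, card_univ, Fintype.card_fin, mul_pow, ← exp_nat_mul]
      congr 2; ring
  have ha2 : a * n / 2 < 1 / 2 := by linarith
  refine (integral_mono (integrable_finsetSum _ fun y _ => hint _)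
    ((Gap.integrable_exp_sq ha2).const_mul _) hpt).trans_eq ?_
  rw [integral_const_mul, Gap.integral_exp_sq ha2]
  ring_nf

lemma integral_partZ_sq_le (hn : 0 < n) {b : ℝ} (h1 : b ^ 2 * n < 1) :
    Integrable (fun g => partZ n b g ^ 2) (gauss (Edge n)) ∧
      ∫ g, partZ n b g ^ 2 ∂gauss (Edge n)
        ≤ (√(1 - b ^ 2 * n))⁻¹ * (2 ^ n * exp (b ^ 2 * Fintype.card (Edge n) / 2)) ^ 2 := by
  have e : ∀ g, partZ n b g ^ 2 = ∑ x : Conf n, ∑ y : Conf n,
      exp (∑ e, g e * (pairCoef n b e x + pairCoef n b e y)) := fun g => by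
    rw [partZ, sq, sum_mul_sum]
    refine Finset.sum_congr rfl fun x _ => Finset.sum_congr rfl fun y _ => ?_
    simp only [← exp_add, wsum, mul_add, sum_add_distrib]
  simp only [e]
  refine ⟨integrable_finsetSum _ fun x _ => integrable_finsetSum _ fun y _ =>
    integrable_gauss_exp _, ?_⟩
  rw [integral_finsetSum _ fun x _ => integrable_finsetSum _ fun y _ => integrable_gauss_exp _]
  have hpair : ∀ x y : Conf n, exp ((∑ e, (pairCoef n b e x + pairCoef n b e y) ^ 2) / 2)
      ≤ exp (b ^ 2 * Fintype.card (Edge n)) * exp (b ^ 2 * (∑ i, spin x i * spin y i) ^ 2 / 2) := by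
    intro x y
    rw [← exp_add, exp_le_exp]
    have h : ∑ e, (pairCoef n b e x + pairCoef n b e y) ^ 2 = 2 * (b ^ 2 * Fintype.card (Edge n))
        + 2 * b ^ 2 * ∑ e, pairSpin x e * pairSpin y e := by
      simp only [add_sq, sum_add_distrib, sum_pairCoef_sq, mul_sum]
      have : ∑ e, 2 * pairCoef n b e x * pairCoef n b e y
          = ∑ e, 2 * b ^ 2 * (pairSpin x e * pairSpin y e) :=
        Finset.sum_congr rfl fun e _ => by simp only [pairCoef]; ring
      rw [this]; ring
    rw [h, sum_pair_mul]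
    nlinarith [sq_nonneg b, (Nat.cast_nonneg n : (0:ℝ) ≤ n)]
  have hrow : ∀ x : Conf n,
      ∑ y : Conf n, exp ((∑ e, (pairCoef n b e x + pairCoef n b e y) ^ 2) / 2)
        ≤ exp (b ^ 2 * Fintype.card (Edge n)) * (2 ^ n * (√(1 - b ^ 2 * n))⁻¹) := fun x => by
    refine (sum_le_sum fun y _ => hpair x y).trans ?_
    rw [← mul_sum]
    exact mul_le_mul_of_nonneg_left (sum_exp_overlap_le x _ (sq_nonneg b) h1) (exp_pos _).le
  refine (sum_le_sum fun x _ => ?_).trans_eq ?_ (b := ∑ _x : Conf n,
    exp (b ^ 2 * Fintype.card (Edge n)) * (2 ^ n * (√(1 - b ^ 2 * n))⁻¹))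
  · rw [integral_finsetSum _ fun y _ => integrable_gauss_exp _]
    simp only [gauss_mgf]
    exact hrow x
  · have h2 : exp (b ^ 2 * Fintype.card (Edge n)) = exp (b ^ 2 * Fintype.card (Edge n) / 2) ^ 2 := by
      rw [← exp_nat_mul]; push_cast; congr 1; ring
    simp [h2]; ring

lemma free_eq_logZ (b : ℝ) : free n b = ∫ g, logZ n b g ∂gauss (Edge n) := rfl

lemma exp_logZ (b : ℝ) (g : Edge n → ℝ) : exp (logZ n b g) = partZ n b g := exp_lse _

/-- With positive probability the partition function is at least half its mean. -/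
lemma partZ_large (hn : 0 < n) {b : ℝ} (h1 : b ^ 2 * n < 1) :
    √(1 - b ^ 2 * n) / 4 ≤ (gauss (Edge n)).real
      {g | log ((∫ g', partZ n b g' ∂gauss (Edge n)) / 2) ≤ logZ n b g} := by
  obtain ⟨hi2, hS⟩ := integral_partZ_sq_le hn h1
  rw [← integral_partZ] at hS
  set E := ∫ g', partZ n b g' ∂gauss (Edge n) with hE
  have hE0 : 0 < E := by rw [hE, integral_partZ]; positivity
  set r := √(1 - b ^ 2 * n)
  have hr : 0 < r := sqrt_pos.2 (by linarith)
  set A := {g | log (E / 2) ≤ logZ n b g}
  have hA : MeasurableSet A :=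
    (isClosed_le continuous_const (continuous_of_coord_lip (logZ_lip b))).measurableSet
  set s := r / (4 * E) with hs
  have hs0 : 0 < s := by positivity
  have hpt : ∀ g, partZ n b g ≤ E / 2 + s * partZ n b g ^ 2 + A.indicator (fun _ => 1 / (4 * s)) g := by
    intro g
    by_cases hg : g ∈ A
    · rw [Set.indicator_of_mem hg]
      have : 0 ≤ (2 * s * partZ n b g - 1) ^ 2 / (4 * s) := by positivity
      have e : (2 * s * partZ n b g - 1) ^ 2 / (4 * s)
          = s * partZ n b g ^ 2 - partZ n b g + 1 / (4 * s) := by field_simp; ring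
      linarith
    · rw [Set.indicator_of_notMem hg]
      have h : logZ n b g < log (E / 2) := not_le.1 hg
      have := exp_le_exp.2 h.le
      rw [exp_logZ, exp_log (by positivity)] at this
      nlinarith [sq_nonneg (partZ n b g), hs0]
  have hi : Integrable (A.indicator fun _ => 1 / (4 * s)) (gauss (Edge n)) :=
    (integrable_const _).indicator hA
  have i2 : Integrable (fun g => E / 2 + s * partZ n b g ^ 2) (gauss (Edge n)) :=
    (integrable_const _).add (hi2.const_mul s)
  have h := integral_mono (integrable_partZ b) (i2.fun_add hi) hpt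
  rw [integral_add i2 hi, integral_add (integrable_const _) (hi2.const_mul s), integral_const_mul,
    integral_indicator_const _ hA, integral_const, probReal_univ] at h
  simp only [smul_eq_mul, one_mul] at h
  have h2 : s * (r⁻¹ * E ^ 2) = E / 4 := by rw [hs]; field_simp
  have h3 : E / 4 ≤ (gauss (Edge n)).real A * (1 / (4 * s)) := by
    linarith [mul_le_mul_of_nonneg_left hS hs0.le]
  have h4 : (gauss (Edge n)).real A * (1 / (4 * s)) = (gauss (Edge n)).real A * E / r := by
    rw [hs]; field_simp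
  rw [h4, le_div_iff₀ hr] at h3
  nlinarith

lemma logZ_upper_tail (b : ℝ) {v s : ℝ} (hv : b ^ 2 * Fintype.card (Edge n) ≤ v) (hv0 : 0 < v)
    (hs : 0 ≤ s) :
    (gauss (Edge n)).real {g | free n b + s ≤ logZ n b g} ≤ exp (-(s ^ 2) / (4 * v)) := by
  have h := lip_lower_tail (F := fun g => -logZ n b g) (c := fun _ => |b|) (v := v)
    (fun g g' => by rw [neg_sub_neg, abs_sub_comm]; exact logZ_lip b g g')
    (by simpa [mul_comm] using hv) hv0 hs
  rw [integral_neg, ← free_eq_logZ] at h
  refine le_trans (measureReal_mono fun g hg => ?_) h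
  simp only [Set.mem_ofPred_eq] at hg ⊢
  linarith

lemma card_edge_eq : (Fintype.card (Edge n) : ℝ) = (n:ℝ) * ((n:ℝ) - 1) / 2 := by
  linarith [card_edge_mul_two n]

/-- The free energy at high temperature. -/
theorem free_ge_annealed {β : ℝ} (h0 : 0 < β) (h1 : β < 1) {ε : ℝ} (hε : 0 < ε) :
    ∀ᶠ n : ℕ in atTop, (n:ℝ) * (log 2 + β ^ 2 / 4 - ε) ≤ free n (β / √n) := by
  have hr : 0 < √(1 - β ^ 2) := sqrt_pos.2 (by nlinarith)
  set c := ε ^ 2 / (8 * β ^ 2) with hc
  have hc0 : 0 < c := by positivity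
  have hlim : Tendsto (fun n : ℕ => exp (-(c * n))) atTop (𝓝 0) :=
    tendsto_exp_neg_atTop_nhds_zero.comp (tendsto_natCast_atTop_atTop.const_mul_atTop hc0)
  filter_upwards [(hlim.eventually (gt_mem_nhds (show 0 < √(1 - β ^ 2) / 4 by positivity))),
    eventually_ge_atTop 1,
    tendsto_natCast_atTop_atTop.eventually (eventually_ge_atTop ((β ^ 2 / 4 + log 2) / (ε / 2)))]
    with n hn hn1 hbig
  have hn0 : (0:ℝ) < n := Nat.cast_pos.2 hn1
  set b := β / √n with hb
  have hb2 : b ^ 2 * n = β ^ 2 := by rw [hb, div_pow, sq_sqrt hn0.le]; field_simp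
  have hcard : b ^ 2 * Fintype.card (Edge n) = β ^ 2 * ((n:ℝ) - 1) / 2 := by
    rw [card_edge_eq, ← hb2]; ring
  by_contra hlt
  push Not at hlt
  rw [div_le_iff₀ (by positivity)] at hbig
  have hP := partZ_large (b := b) hn1 (by rw [hb2]; nlinarith)
  have hlog : log ((∫ g', partZ n b g' ∂gauss (Edge n)) / 2)
      = n * log 2 + β ^ 2 * ((n:ℝ) - 1) / 4 - log 2 := by
    rw [integral_partZ, log_div (by positivity) two_ne_zero, log_mul (by positivity) (exp_pos _).ne',
      log_pow, log_exp, hcard]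
    ring
  rw [hb2, hlog] at hP
  have hU := logZ_upper_tail (n := n) b (v := β ^ 2 * n / 2) (s := ε * n / 2)
    (by rw [hcard]; nlinarith) (by positivity) (by positivity)
  have hsub : {g | (n:ℝ) * log 2 + β ^ 2 * ((n:ℝ) - 1) / 4 - log 2 ≤ logZ n b g}
      ⊆ {g | free n b + ε * n / 2 ≤ logZ n b g} := fun g hg => by
    simp only [Set.mem_ofPred_eq] at hg ⊢
    linarith
  have := hP.trans ((measureReal_mono hsub).trans hU)
  rw [show -((ε * n / 2) ^ 2) / (4 * (β ^ 2 * n / 2)) = -(c * n) by rw [hc]; field_simp; ring] at this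
  linarith

lemma corr_le_half (s : ℝ) (g : Edge n → ℝ) : corr s g ≤ ((n:ℝ) - 1) / (2 * n) := by
  rcases Nat.eq_zero_or_pos n with rfl | hn
  · simp [corr]
  have hn' : (0:ℝ) < n := Nat.cast_pos.2 hn
  have h : ∑ e, avg s g (fun x => pairSpin x e) ^ 2 ≤ Fintype.card (Edge n) := by
    refine (sum_le_sum fun e _ => ?_ : _ ≤ ∑ _e : Edge n, (1:ℝ)).trans_eq (by simp)
    exact (sq_le_one_iff_abs_le_one _).2 (abs_avg_pair_le s g e)
  rw [card_edge_eq] at h
  rw [corr]
  refine (div_le_div_of_nonneg_right h (sq_nonneg _)).trans_eq ?_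
  field_simp

/-- The free energy is increasing in the inverse temperature. -/
lemma free_mono (hn : 0 < n) {s r : ℝ} (hs : 0 ≤ s) (h : s ≤ r) :
    free n (s / √n) ≤ free n (r / √n) := by
  rw [fe_eq hn, fe_eq hn]
  refine mul_le_mul_of_nonneg_left ?_ (Nat.cast_nonneg n)
  have hi : Integrable (fun g => corr s g) (disorder n) :=
    integrable_of_bound (continuous_corr s) (B := 1)
      fun g => by rw [abs_of_nonneg (corr_nonneg s g)]; exact corr_le_one s g
  have hc : ∫ g, corr s g ∂disorder n ≤ ((n:ℝ) - 1) / (2 * n) := by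
    refine (integral_mono hi (integrable_const _) fun g => corr_le_half s g).trans_eq ?_
    simp
  have he : 0 ≤ en n s := by rw [en_eq hn]; exact mul_nonneg hs (sub_nonneg.2 hc)
  linarith [fe_tangent (n := n) s r, mul_nonneg (sub_nonneg.2 h) he]

end Vale.Agent.P146
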