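import Vale.Agent.P146.Blocks

/-!
For every number of cycle lengths there is a window above the critical temperature on which each
of these lengths contributes its harmonic share to the variance of the free energy.
-/

open MeasureTheory ProbabilityTheory Real Finset Filter
open scoped Topology

namespace Vale.Agent.P146

open P150

lemma tendsto_pow_mul_exp_nat (k : ℕ) {c : ℝ} (hc : 0 < c) :
    Tendsto (fun n : ℕ => (n:ℝ) ^ k * exp (-(c * n))) atTop (𝓝 0) := by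
  have h := ((tendsto_pow_mul_exp_neg_atTop_nhds_zero k).comp
    (tendsto_natCast_atTop_atTop.const_mul_atTop hc)).div_const (c ^ k)
  rw [zero_div] at h
  refine h.congr fun n => ?_
  simp only [Function.comp, mul_pow]
  field_simp

/-- The parameters of one cycle length. -/
lemma small_error (L : ℕ) {c : ℝ} (hc : 0 < c) :
    ∀ᶠ n : ℕ in atTop, (2 * 4 ^ L + 2 * evenMoment L + 1) * (1 + 2 * L) *
      ((n:ℝ) ^ (2 * L + 2) * exp (-(c * n))) ≤ 1 / 16 := by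
  have h := (tendsto_pow_mul_exp_nat (2 * L + 2) hc).const_mul
    ((2 * 4 ^ L + 2 * evenMoment L + 1) * (1 + 2 * (L:ℝ)))
  rw [mul_zero] at h
  exact h.eventually (eventually_le_of_lt_nhds' (by norm_num))
where
  eventually_le_of_lt_nhds' {a b : ℝ} (h : a < b) : ∀ᶠ x in 𝓝 a, x ≤ b :=
    (gt_mem_nhds h).mono fun _ hx => hx.le

lemma size_facts {n L : ℕ} {b : ℝ} (hn : 4 * (L + 1) ^ 2 ≤ n) (hb : (√n)⁻¹ ≤ b) :
    0 < n / (L + 1) ∧ (n:ℝ) / (2 * ((L:ℝ) + 1)) ≤ (n / (L + 1) : ℕ) ∧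
      ((n / (L + 1) : ℕ) : ℝ) ≤ n ∧ 1 ≤ ((n / (L + 1) : ℕ) : ℝ) * b := by
  set m := n / (L + 1) with hm
  have hn1 : 1 ≤ n := le_trans (Nat.one_le_iff_ne_zero.2 (by positivity)) hn
  have hL : L + 1 ≤ n := le_trans (by nlinarith) hn
  have hm0 : 0 < m := Nat.div_pos hL L.succ_pos
  have h1 : n < (L + 1) * (m + 1) := Nat.lt_mul_div_succ n L.succ_pos
  have hmn : (n:ℝ) / (2 * ((L:ℝ) + 1)) ≤ m := by
    rw [div_le_iff₀ (by positivity)]
    have h2 : (n:ℝ) ≤ ((L:ℝ) + 1) * (m + 1) := by exact_mod_cast h1.le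
    have h3 : (1:ℝ) ≤ m := by exact_mod_cast hm0
    nlinarith
  refine ⟨hm0, hmn, by exact_mod_cast Nat.div_le_self n (L + 1), ?_⟩
  have hn0 : (0:ℝ) < n := by exact_mod_cast hn1
  have hs : 2 * ((L:ℝ) + 1) ≤ √n := by
    refine le_sqrt_of_sq_le ?_
    rw [mul_pow]
    calc (2:ℝ) ^ 2 * ((L:ℝ) + 1) ^ 2 = ((4 * (L + 1) ^ 2 : ℕ) : ℝ) := by push_cast; ring
      _ ≤ n := by exact_mod_cast hn
  calc (1:ℝ) ≤ √n / (2 * ((L:ℝ) + 1)) := by rw [one_le_div (by positivity)]; exact hs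
    _ = n / (2 * ((L:ℝ) + 1)) * (√n)⁻¹ := by
        field_simp
        rw [sq_sqrt hn0.le]
    _ ≤ m * b := mul_le_mul hmn hb (by positivity) (Nat.cast_nonneg _)

lemma card_emb_ge {n k : ℕ} (hn : 2 * k * k ≤ n) (hn0 : 0 < n) :
    (n:ℝ) ^ k / 2 ≤ (Fintype.card (Fin k ↪ Fin n) : ℝ) := by
  rw [Fintype.card_embedding_eq, Fintype.card_fin, Fintype.card_fin]
  have hk : k ≤ n + 1 := by nlinarith
  have h1 : ((n + 1 - k) ^ k : ℕ) ≤ (n.descFactorial k : ℝ) := by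
    exact_mod_cast Nat.pow_sub_le_descFactorial n k
  refine le_trans ?_ h1
  push_cast [Nat.cast_sub hk]
  have hn' : (0:ℝ) < n := Nat.cast_pos.2 hn0
  have h2 : (2:ℝ) * k * k ≤ n := by exact_mod_cast hn
  have hk' : (k:ℝ) ≤ n + 1 := by exact_mod_cast hk
  have hx : -2 ≤ -((k:ℝ) - 1) / n := by
    rw [le_div_iff₀ hn']; linarith
  have h3 := one_add_mul_le_pow hx k
  have h4 : (k:ℝ) * (((k:ℝ) - 1) / n) ≤ 1 / 2 := by
    rw [mul_div_assoc', div_le_iff₀ hn']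
    nlinarith [(Nat.cast_nonneg k : (0:ℝ) ≤ k)]
  calc (n:ℝ) ^ k / 2 = (n:ℝ) ^ k * (1 / 2) := by ring
    _ ≤ (n:ℝ) ^ k * (1 + -((k:ℝ) - 1) / n) ^ k := by
        refine mul_le_mul_of_nonneg_left (le_trans ?_ h3) (by positivity)
        rw [neg_div, mul_neg]; linarith
    _ = _ := by rw [← mul_pow]; congr 1; field_simp; ring

/-- The two exponentially small terms. -/
lemma bracket_le {n L : ℕ} {b β ε c r R m F β₀ : ℝ} (hn : (0:ℝ) < n)
    (hcard : b ^ 2 * Fintype.card (Edge n) = β ^ 2 * ((n:ℝ) - 1) / 2) (hr0 : 0 ≤ r)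
    (hε : ε = r / 16) (hc1 : c ≤ ε ^ 2 / 8) (hc2 : c ≤ r / 2) (hR : r * n ≤ R * m)
    (hgap : β ^ 2 - β₀ ^ 2 ≤ r) (hF : (n:ℝ) * (log 2 + β₀ ^ 2 / 4 - ε) ≤ F) :
    exp (-((ε * n) ^ 2) / (4 * (2 * n))) + exp (-(F - ε * n)) *
      (2 ^ n * (exp (b ^ 2 * Fintype.card (Edge n) / 2) * (2 * L * exp (-(R * m)))))
      ≤ (1 + 2 * L) * exp (-(c * n)) := by
  rw [add_mul, one_mul]
  refine add_le_add (exp_le_exp.2 ?_) ?_
  · rw [show -((ε * n) ^ 2) / (4 * (2 * (n:ℝ))) = -(ε ^ 2 / 8 * n) by field_simp; ring]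
    linarith [mul_le_mul_of_nonneg_right hc1 hn.le]
  · rw [show (2:ℝ) ^ n = exp (n * log 2) by rw [exp_nat_mul, exp_log two_pos],
      show exp (-(F - ε * n)) * (exp (n * log 2) * (exp (b ^ 2 * Fintype.card (Edge n) / 2) *
        (2 * L * exp (-(R * m))))) = 2 * L * exp (-(F - ε * n) + n * log 2
        + b ^ 2 * Fintype.card (Edge n) / 2 + -(R * m)) by
      rw [exp_add, exp_add, exp_add]; ring, hcard]
    refine mul_le_mul_of_nonneg_left (exp_le_exp.2 ?_) (by positivity)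
    have h3 := mul_le_mul_of_nonneg_left hgap (div_nonneg hn.le (by norm_num : (0:ℝ) ≤ 4))
    have h4 := mul_le_mul_of_nonneg_right hc2 hn.le
    have h5 : (n:ℝ) * ε = n * r / 16 := by rw [hε]; ring
    have h6 : 0 ≤ r * n := mul_nonneg hr0 hn.le
    have h7 := sq_nonneg β
    linarith

/-- The second moment of the crude bound is polynomial. -/
lemma poly_le {L : ℕ} {m n b q : ℝ} (hq : |q| ≤ 1) (hm : 0 ≤ m) (hmn : m ≤ n) (hn : 1 ≤ n)
    (hb : 0 ≤ b) (hb2 : b ≤ 2) :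
    2 * (q * m * (m * b) ^ L) ^ 2 + 2 * m ^ 2 * ((n ^ 2) ^ L * evenMoment L) + 1
      ≤ (2 * 4 ^ L + 2 * evenMoment L + 1) * n ^ (2 * L + 2) := by
  have hn0 : 0 ≤ n := zero_le_one.trans hn
  have hev : 0 ≤ evenMoment L := integral_nonneg fun t => pow_nonneg (sq_nonneg t) _
  have h1 : (q * m * (m * b) ^ L) ^ 2 ≤ (1 * n * (n * 2) ^ L) ^ 2 := by
    rw [mul_assoc, mul_pow, ← sq_abs q, mul_assoc 1 n, mul_pow 1]
    gcongr
  have h2 : (1 * n * (n * 2) ^ L) ^ 2 = 4 ^ L * n ^ (2 * L + 2) := by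
    rw [mul_pow, mul_pow, mul_pow, mul_pow, ← pow_mul, ← pow_mul, show (4:ℝ) = 2 ^ 2 by norm_num,
      ← pow_mul]
    ring
  have h3 : m ^ 2 * ((n ^ 2) ^ L * evenMoment L) ≤ evenMoment L * n ^ (2 * L + 2) := by
    refine (mul_le_mul_of_nonneg_right (pow_le_pow_left₀ hm hmn 2) (by positivity)).trans_eq ?_
    rw [pow_add, pow_mul]; ring
  have h4 : (1:ℝ) ≤ n ^ (2 * L + 2) := one_le_pow₀ hn
  linarith

/-- A lower bound on every block decomposition gives a share of the variance. -/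
lemma share_of_blocks {n L : ℕ} {b β : ℝ} (hL : 2 ≤ L) (hn : 4 * (L + 1) ^ 2 ≤ n) (hb0 : 0 < b)
    (hm : 0 < n / (L + 1)) (hmb : 1 ≤ ((n / (L + 1) : ℕ) : ℝ) * b) (hβ1 : 1 ≤ β)
    (hbn : b ^ 2 * n = β ^ 2)
    (hblock : ∀ P : Fin (L + 1) × Fin (n / (L + 1)) ↪ Fin n,
      3 / 4 * (((n / (L + 1) : ℕ) : ℝ) * (((n / (L + 1) : ℕ) : ℝ) * b) ^ L) - 1 / 4
        ≤ ∫ g, (∑ f : Fin (L + 1) → Fin (n / (L + 1)),
          pathTerm b (show 1 ≤ L by omega) (pick P f) g) ∂gauss (Edge n)) :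
    1 / (16 * ((L:ℝ) + 1)) ≤ cycCoef (logZ n b) (show 1 ≤ L by omega) ^ 2 /
        (2 * ((L:ℝ) + 1) * Fintype.card (Fin (L + 1) ↪ Fin n)) := by
  have hlt : (L + 1) * (n / (L + 1)) ≤ n := Nat.mul_div_le n (L + 1)
  set m := n / (L + 1)
  have hn1 : 1 ≤ n := le_trans (Nat.one_le_iff_ne_zero.2 (by positivity)) hn
  set T := (m:ℝ) * ((m : ℝ) * b) ^ L with hT
  have hT1 : 1 ≤ T := one_le_mul_of_one_le_of_one_le (by exact_mod_cast hm) (one_le_pow₀ hmb)
  let P0 : Fin (L + 1) × Fin m ↪ Fin n :=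
    finProdFinEquiv.toEmbedding.trans (Fin.castLEEmb hlt)
  set Φ : (Fin (L + 1) ↪ Fin n) → ℝ :=
    fun cc => ∫ g, pathTerm b (show 1 ≤ L by omega) cc g ∂gauss (Edge n) with hΦ
  have hsum := sum_emb_ge Φ (fun f : Fin (L + 1) → Fin m => pick P0 f) (a := T / 2) fun σ => by
    have h := hblock (P0.trans σ.toEmbedding)
    rw [integral_finsetSum _ fun f _ => integrable_pathTerm b hL _] at h
    have e : ∀ f, (pick P0 f).trans σ.toEmbedding = pick (P0.trans σ.toEmbedding) f := fun f => rfl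
    simp only [e]
    linarith
  rw [Fintype.card_fun, Fintype.card_fin, Fintype.card_fin, Nat.cast_pow, hT, mul_pow,
    show (m:ℝ) * ((m:ℝ) ^ L * b ^ L) = (m:ℝ) ^ (L + 1) * b ^ L by ring] at hsum
  set N : ℝ := ↑(Fintype.card (Fin (L + 1) ↪ Fin n)) with hN
  have hsum' : N * (b ^ L / 2) ≤ ∑ cc, Φ cc :=
    le_of_mul_le_mul_left (by linarith) (show (0:ℝ) < (m:ℝ) ^ (L + 1) by positivity)
  have hA : cycCoef (logZ n b) (show 1 ≤ L by omega) = b * ∑ cc, Φ cc := by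
    rw [cycCoef, Finset.mul_sum]
    exact Finset.sum_congr rfl fun cc _ => integral_logZ_cycle b hL cc
  have hk : 2 * (L + 1) * (L + 1) ≤ n := by nlinarith
  have hNlo : (n:ℝ) ^ (L + 1) / 2 ≤ N := card_emb_ge hk hn1
  have hN0 : 0 < N := lt_of_lt_of_le (by positivity) hNlo
  have hA2 : (N * (b ^ (L + 1) / 2)) ^ 2 ≤ cycCoef (logZ n b) (show 1 ≤ L by omega) ^ 2 := by
    refine pow_le_pow_left₀ (by positivity) ?_ 2
    rw [hA]
    calc N * (b ^ (L + 1) / 2) = b * (N * (b ^ L / 2)) := by ring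
      _ ≤ _ := mul_le_mul_of_nonneg_left hsum' hb0.le
  refine le_trans ?_ (div_le_div_of_nonneg_right hA2 (by positivity))
  have hone : 1 ≤ 2 * N * (b ^ 2) ^ (L + 1) := by
    calc (1:ℝ) ≤ (β ^ 2) ^ (L + 1) := one_le_pow₀ (one_le_pow₀ hβ1)
      _ = (n:ℝ) ^ (L + 1) * (b ^ 2) ^ (L + 1) := by rw [← hbn, mul_pow]; ring
      _ ≤ 2 * N * (b ^ 2) ^ (L + 1) := by gcongr; linarith
  rw [show (N * (b ^ (L + 1) / 2)) ^ 2 / (2 * ((L:ℝ) + 1) * N)
      = 2 * N * (b ^ 2) ^ (L + 1) / (16 * ((L:ℝ) + 1)) by field_simp; ring]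
  gcongr

/-- The cycles on `L + 1` sites contribute on a window above the critical point. -/
theorem cycle_share {L : ℕ} (hL : 2 ≤ L) :
    ∃ δ : ℝ, 0 < δ ∧ ∀ᶠ n : ℕ in atTop, ∀ β ∈ Set.Icc (1:ℝ) (1 + δ),
      1 / (16 * ((L:ℝ) + 1)) ≤ cycCoef (logZ n (β / √n)) (show 1 ≤ L by omega) ^ 2 /
        (2 * ((L:ℝ) + 1) * Fintype.card (Fin (L + 1) ↪ Fin n)) := by
  have hL0 : (0:ℝ) < L := by exact_mod_cast (show 0 < L by omega)
  set η : ℝ := 1 / (4 * L) with hη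
  set D : ℝ := 2 * ((L:ℝ) + 1) with hD
  set r := rate D η L / (2 * ((L:ℝ) + 1)) with hr
  have hr0 : 0 < r := by rw [hr, rate]; positivity
  set r' := min r 1 with hr'
  have hr'0 : 0 < r' := lt_min hr0 one_pos
  have hr'1 : r' ≤ 1 := min_le_right _ _
  have hr'r : r' ≤ r := min_le_left _ _
  set ε := r / 16 with hε
  set c := min (ε ^ 2 / 8) (r / 2) with hc
  have hc0 : 0 < c := lt_min (by positivity) (by positivity)
  refine ⟨r' / 8, by positivity, ?_⟩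
  filter_upwards [small_error L hc0, eventually_ge_atTop (4 * (L + 1) ^ 2),
    free_ge_annealed (β := 1 - r' / 4) (by linarith) (by linarith) (show 0 < ε by positivity)]
    with n hsmall hn hfree β hβ
  obtain ⟨hβ1, hβ2⟩ := hβ
  have hn1 : 1 ≤ n := le_trans (Nat.one_le_iff_ne_zero.2 (by positivity)) hn
  have hn' : (1:ℝ) ≤ n := by exact_mod_cast hn1
  have hn0 : (0:ℝ) < n := by linarith
  have hsn : (1:ℝ) ≤ √n := one_le_sqrt.2 hn'
  set b := β / √n with hb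
  have hb0 : 0 < b := by positivity
  have hb1 : (√n)⁻¹ ≤ b := by
    rw [inv_eq_one_div, hb]; gcongr
  have hb2 : b ≤ 2 := by
    rw [hb, div_le_iff₀ (by linarith)]; nlinarith
  have hbn : b ^ 2 * n = β ^ 2 := by rw [hb, div_pow, sq_sqrt hn0.le]; field_simp
  obtain ⟨hm, hmlo, hmn, hmb⟩ := size_facts hn hb1
  set m := n / (L + 1) with hmdef
  have hDm : 1 ≤ D * m * b ^ 2 := by
    calc (1:ℝ) ≤ β ^ 2 := one_le_pow₀ hβ1
      _ = D * ((n:ℝ) / (2 * ((L:ℝ) + 1))) * b ^ 2 := by rw [← hbn, hD]; field_simp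
      _ ≤ D * m * b ^ 2 := by gcongr
  have hη1 : η ≤ 1 := by
    rw [hη, div_le_one (by positivity)]
    have : (2:ℝ) ≤ L := by exact_mod_cast hL
    linarith
  have hLη : (L:ℝ) * η = 1 / 4 := by rw [hη]; field_simp
  have hcard : b ^ 2 * Fintype.card (Edge n) = β ^ 2 * ((n:ℝ) - 1) / 2 := by
    rw [card_edge_eq, ← hbn]; ring
  have hmono := free_mono (n := n) hn1 (show 0 ≤ 1 - r' / 4 by linarith)
    (show 1 - r' / 4 ≤ β by linarith)
  have hbr := bracket_le (n := n) (L := L) (b := b) (β := β) (ε := ε) (c := c) (r := r)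
    (R := rate D η L) (m := (m:ℝ)) (F := free n b) (by positivity) hcard
    hr0.le hε (min_le_left _ _) (min_le_right _ _)
    (by
      rw [hr, div_mul_eq_mul_div, mul_div_assoc]
      exact mul_le_mul_of_nonneg_left hmlo (by rw [rate]; positivity))
    (by nlinarith : β ^ 2 - (1 - r' / 4) ^ 2 ≤ r) (hfree.trans hmono)
  have hM : 2 * ((1 - L * η) * m * ((m : ℝ) * b) ^ L) ^ 2
      + 2 * (m : ℝ) ^ 2 * (((n:ℝ) ^ 2) ^ L * evenMoment L) + 1
      ≤ (2 * 4 ^ L + 2 * evenMoment L + 1) * (n:ℝ) ^ (2 * L + 2) := by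
    rw [hLη]
    exact poly_le (by norm_num) (Nat.cast_nonneg m) hmn hn' hb0.le hb2
  have hv : b ^ 2 * Fintype.card (Edge n) ≤ 2 * n := by
    have h4 : β ^ 2 ≤ 2 ^ 2 := pow_le_pow_left₀ (by linarith) (by linarith) 2
    rw [hcard]
    linarith [mul_le_mul_of_nonneg_right h4 (sub_nonneg.2 hn')]
  have hblock := block_ge (n := n) (m := m) (b := b) (D := D) (η := η) (s := ε * n) (v := 2 * n)
    (show 1 ≤ L by omega) hn1 (by linarith) (by positivity) hη1 hb0 hm hDm (by positivity)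
    hv (by positivity)
    (by
      refine (mul_le_mul hM hbr (by positivity) ?_).trans (le_trans (le_of_eq ?_) hsmall)
      · have : 0 ≤ evenMoment L := integral_nonneg fun t => pow_nonneg (sq_nonneg t) _
        positivity
      · ring)
  exact share_of_blocks hL hn hb0 hm hmb hβ1 hbn fun P => by
    have h := hblock P
    rw [hLη] at h
    linarith

lemma exists_harmonic (K : ℝ) : ∃ J : ℕ, K ≤ ∑ j : Fin J, 1 / (16 * ((j:ℝ) + 3)) := by
  obtain ⟨J, hJ⟩ := (tendsto_atTop.1 tendsto_sum_range_one_div_nat_succ_atTop (48 * K)).exists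
  refine ⟨J, ?_⟩
  rw [Fin.sum_univ_eq_sum_range fun j : ℕ => 1 / (16 * ((j:ℝ) + 3))]
  calc K = 1 / 48 * (48 * K) := by ring
    _ ≤ 1 / 48 * ∑ i ∈ range J, 1 / ((i:ℝ) + 1) := by gcongr
    _ ≤ _ := by
        rw [Finset.mul_sum]
        refine Finset.sum_le_sum fun j _ => ?_
        rw [div_mul_div_comm, one_mul]
        refine one_div_le_one_div_of_le (by positivity) ?_
        linarith [(Nat.cast_nonneg j : (0:ℝ) ≤ j)]

/-- The variance exceeds any bound on a window above the critical point. -/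
theorem variance_window (K : ℝ) : ∃ δ : ℝ, 0 < δ ∧ ∀ᶠ n : ℕ in atTop,
    ∀ β ∈ Set.Icc (1:ℝ) (1 + δ), K ≤ variance (logZ n (β / √n)) (gauss (Edge n)) := by
  obtain ⟨J, hJ⟩ := exists_harmonic K
  choose δ hδ hev using fun j : Fin J => cycle_share (L := (j:ℕ) + 2) (by omega)
  obtain ⟨δ₀, hδ₀, hle⟩ : ∃ δ₀, 0 < δ₀ ∧ ∀ j, δ₀ ≤ δ j := by
    rcases isEmpty_or_nonempty (Fin J) with h | h
    · exact ⟨1, one_pos, fun j => h.elim j⟩
    · obtain ⟨j₀, -, hj₀⟩ := Finset.exists_min_image univ δ univ_nonempty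
      exact ⟨δ j₀, hδ j₀, fun j => hj₀ j (mem_univ j)⟩
  refine ⟨δ₀, hδ₀, ?_⟩
  filter_upwards [eventually_all.2 hev] with n hn β hβ
  refine hJ.trans (le_trans (Finset.sum_le_sum fun j _ => ?_)
    (var_ge_cycles (logZ_lip (n := n) (β / √n)) J))
  have h := hn j β ⟨hβ.1, hβ.2.trans (by linarith [hle j])⟩
  push_cast at h ⊢
  rw [show ((j:ℕ):ℝ) + 2 + 1 = ((j:ℕ):ℝ) + 3 by ring] at h
  exact h

end Vale.Agent.P146
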