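import Vale.Agent.P150.Free

/-!
Gaussian vectors: shifts, marginals along injective maps, and exponential concentration of
coordinatewise Lipschitz functions.
-/

open MeasureTheory ProbabilityTheory Real
open scoped NNReal ENNReal

namespace Vale.Agent.P146

open P150

variable {ι κ : Type*} [Fintype ι] [Fintype κ]

/-- The density of a shift. -/
noncomputable def tilt (θ : ι → ℝ) (g : ι → ℝ) : ℝ := exp (∑ i, θ i * g i - ∑ i, θ i ^ 2 / 2)

lemma gaussianReal_shift (θ : ℝ) :
    (gaussianReal 0 1).map (θ + ·)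
      = (gaussianReal 0 1).withDensity (fun x => ENNReal.ofReal (exp (θ * x - θ ^ 2 / 2))) := by
  rw [gaussianReal_map_const_add, zero_add, gaussianReal_of_var_ne_zero _ one_ne_zero,
    gaussianReal_of_var_ne_zero _ one_ne_zero,
    ← withDensity_mul _ (measurable_gaussianPDF 0 1) (by fun_prop)]
  congr 1
  funext x
  simp only [Pi.mul_apply, gaussianPDF]
  rw [← ENNReal.ofReal_mul (gaussianPDFReal_nonneg _ _ _)]
  congr 1
  simp only [gaussianPDFReal, NNReal.coe_one, mul_one, sub_zero]
  rw [mul_assoc, ← exp_add]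
  congr 2
  ring

lemma gauss_shift_eq (θ : ι → ℝ) :
    (gauss ι).map (fun g i => θ i + g i) = (gauss ι).withDensity fun g => ENNReal.ofReal (tilt θ g) := by
  rw [gauss, Measure.pi_map_pi fun i => (measurable_const_add (θ i)).aemeasurable]
  simp only [gaussianReal_shift]
  have : ∀ i, IsProbabilityMeasure
      ((gaussianReal 0 1).withDensity fun x => ENNReal.ofReal (exp (θ i * x - θ i ^ 2 / 2))) := by
    intro i
    rw [← gaussianReal_shift]
    exact Measure.isProbabilityMeasure_map (measurable_const_add _).aemeasurable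
  refine Measure.pi_eq fun s hs => ?_
  have e : ∀ g : ι → ℝ, tilt θ g = ∏ i, exp (θ i * g i - θ i ^ 2 / 2) := fun g => by
    rw [tilt, ← exp_sum, Finset.sum_sub_distrib]
  have hi : ∀ i, Integrable (fun x : ℝ => exp (θ i * x - θ i ^ 2 / 2))
      ((gaussianReal 0 1).restrict (s i)) := fun i => by
    simp only [sub_eq_add_neg, exp_add]
    exact ((integrable_exp_mul_gaussianReal (θ i)).mul_const _).restrict
  rw [withDensity_apply _ (MeasurableSet.univ_pi hs), Measure.restrict_pi_pi]
  simp only [e]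
  rw [← ofReal_integral_eq_lintegral_ofReal (Integrable.fintype_prod hi)
      (ae_of_all _ fun g => Finset.prod_nonneg fun i _ => (exp_pos _).le),
    integral_fintype_prod_eq_prod (fun i x => exp (θ i * x - θ i ^ 2 / 2)),
    ENNReal.ofReal_prod_of_nonneg fun i _ => integral_nonneg fun x => (exp_pos _).le]
  refine Finset.prod_congr rfl fun i _ => ?_
  rw [withDensity_apply _ (hs i),
    ofReal_integral_eq_lintegral_ofReal (hi i) (ae_of_all _ fun x => (exp_pos _).le)]

/-- The mass of a set under the tilted law is the mass of its translate. -/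
lemma integral_tilt_indicator (θ : ι → ℝ) {A : Set (ι → ℝ)} (hA : MeasurableSet A) :
    ∫ g in A, tilt θ g ∂gauss ι = (gauss ι).real {g | (fun i => θ i + g i) ∈ A} := by
  have hm : Measurable fun g : ι → ℝ => fun i => θ i + g i := by fun_prop
  have h := congrArg (fun μ => μ A) (gauss_shift_eq θ)
  simp only [Measure.map_apply hm hA, withDensity_apply _ hA] at h
  rw [integral_eq_lintegral_of_nonneg_ae (f := tilt θ) (ae_of_all _ fun g => (exp_pos _).le)
    (show Continuous (tilt θ) by unfold tilt; fun_prop).aestronglyMeasurable, ← h]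
  rfl

/-- Restricting along an injective map preserves the law. -/
lemma gauss_comp_injective {f : κ → ι} (hf : Function.Injective f) :
    MeasurePreserving (fun g : ι → ℝ => fun k => g (f k)) (gauss ι) (gauss κ) := by
  classical
  refine ⟨by fun_prop, (Measure.pi_eq fun s hs => ?_).symm⟩
  rw [Measure.map_apply (by fun_prop) (MeasurableSet.univ_pi hs)]
  set s' : ι → Set ℝ := fun i => if h : ∃ k, f k = i then s h.choose else Set.univ with hs'
  have hk : ∀ k, s' (f k) = s k := fun k => by
    have h : ∃ k', f k' = f k := ⟨k, rfl⟩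
    simp only [hs', dif_pos h]
    rw [hf h.choose_spec]
  have he : (fun g : ι → ℝ => fun k => g (f k)) ⁻¹' Set.univ.pi s = Set.univ.pi s' := by
    ext g
    simp only [Set.mem_preimage, Set.mem_pi, Set.mem_univ, true_implies]
    constructor
    · intro h i
      by_cases hi : ∃ k, f k = i
      · obtain ⟨k, rfl⟩ := hi; rw [hk]; exact h k
      · simp [hs', hi]
    · intro h k
      rw [← hk k]; exact h (f k)
  rw [he, gauss, Measure.pi_pi]
  refine (Fintype.prod_of_injective f hf (fun k => gaussianReal 0 1 (s k))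
    (fun i => gaussianReal 0 1 (s' i)) (fun i hi => ?_) (fun k => by rw [hk])).symm
  have : ¬ ∃ k, f k = i := fun ⟨k, hk'⟩ => hi ⟨k, hk'⟩
  simp [hs', this]

/-- Changing signs preserves the law. -/
lemma gauss_sign (s : ι → ℝ) (hs : ∀ i, s i = 1 ∨ s i = -1) :
    MeasurePreserving (fun g : ι → ℝ => fun i => s i * g i) (gauss ι) (gauss ι) := by
  refine measurePreserving_pi (fun _ : ι => gaussianReal 0 1) (fun _ : ι => gaussianReal 0 1)
    fun i => ⟨by fun_prop, ?_⟩
  rcases hs i with h | h
  · rw [show (HMul.hMul (s i) : ℝ → ℝ) = id from funext fun x => by simp [h], Measure.map_id]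
  · rw [show (HMul.hMul (s i) : ℝ → ℝ) = fun x => -x from funext fun x => by simp [h],
      gaussianReal_map_neg, neg_zero]

lemma integrable_exp_abs (B : ℝ) :
    Integrable (fun t : ℝ => exp (B * |t|)) (gaussianReal 0 1) := by
  refine ((integrable_exp_mul_gaussianReal B).add (integrable_exp_mul_gaussianReal (-B))).mono'
    (by fun_prop) (ae_of_all _ fun t => ?_)
  rw [norm_eq_abs, abs_of_pos (exp_pos _)]
  simp only [Pi.add_apply]
  rcases le_total 0 t with h | h
  · rw [abs_of_nonneg h]; linarith [exp_pos (-B * t)]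
  · rw [abs_of_nonpos h, mul_neg, ← neg_mul]; linarith [exp_pos (B * t)]

lemma integrable_exp_coord_lip {F : (ι → ℝ) → ℝ} {c : ι → ℝ}
    (hF : ∀ g g', |F g - F g'| ≤ ∑ i, c i * |g i - g' i|) :
    Integrable (fun g => exp (F g)) (gauss ι) := by
  have hb : Integrable (fun g : ι → ℝ => exp |F 0| * ∏ i, exp (c i * |g i|)) (gauss ι) :=
    (Integrable.fintype_prod fun i => integrable_exp_abs (c i)).const_mul _
  refine hb.mono' (continuous_of_coord_lip hF).rexp.aestronglyMeasurable (ae_of_all _ fun g => ?_)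
  rw [norm_eq_abs, abs_of_pos (exp_pos _), ← exp_sum, ← exp_add, exp_le_exp]
  have h := hF g 0
  simp only [Pi.zero_apply, sub_zero] at h
  linarith [le_abs_self (F g - F 0), le_abs_self (F 0)]

/-- One coordinate: the centred exponential moment of a Lipschitz function. -/
lemma exp_moment_one {G : ℝ → ℝ} {c : ℝ} (hG : ∀ t t', |G t - G t'| ≤ c * |t - t'|) :
    ∫ t, exp (G t) ∂gaussianReal 0 1 ≤ exp (c ^ 2) * exp (∫ t, G t ∂gaussianReal 0 1) := by
  set ν := gaussianReal 0 1
  have hc : 0 ≤ c := by
    have := hG 1 0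
    simp only [sub_zero, abs_one, mul_one] at this
    exact (abs_nonneg _).trans this
  have hGc : Continuous G := by
    refine (LipschitzWith.of_dist_le_mul (K := c.toNNReal) fun t t' => ?_).continuous
    rw [Real.dist_eq, Real.dist_eq, coe_toNNReal c hc]; exact hG t t'
  have hle : ∀ t, |G t| ≤ |G 0| + c * |t| := fun t => by
    have := hG t 0
    rw [sub_zero] at this
    linarith [abs_sub_abs_le_abs_sub (G t) (G 0)]
  have hGi : Integrable G ν :=
    ((integrable_const |G 0|).add
      (((memLp_id_gaussianReal 1).integrable le_rfl).abs.const_mul c)).mono'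
      hGc.aestronglyMeasurable (ae_of_all _ fun t => by rw [norm_eq_abs]; exact hle t)
  have hEi : ∀ s : ℝ, (s = 1 ∨ s = -1) → Integrable (fun t => exp (s * G t)) ν := fun s hs => by
    refine ((integrable_exp_abs c).const_mul (exp |G 0|)).mono' (by fun_prop)
      (ae_of_all _ fun t => ?_)
    rw [norm_eq_abs, abs_of_pos (exp_pos _), ← exp_add, exp_le_exp]
    have := hle t
    rcases hs with rfl | rfl <;> linarith [le_abs_self (G t), neg_abs_le (G t)]
  set M := ∫ t, G t ∂ν
  have h1 : ∫ t, exp (G t) ∂ν = ∫ t, exp (1 * G t) ∂ν := by simp only [one_mul]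
  have hJ : exp (-M) ≤ ∫ t, exp (-1 * G t) ∂ν := by
    have hi : Integrable (fun t => exp (-M) * (1 + (M - G t))) ν :=
      ((integrable_const (1 : ℝ)).add ((integrable_const M).sub hGi)).const_mul _
    have h := integral_mono hi (hEi _ (Or.inr rfl)) fun t => by
      calc exp (-M) * (1 + (M - G t)) ≤ exp (-M) * exp (M - G t) := by
            gcongr; linarith [add_one_le_exp (M - G t)]
        _ = exp (-1 * G t) := by rw [← exp_add]; ring_nf
    have h2 : ∫ t, exp (-M) * (1 + (M - G t)) ∂ν = exp (-M) := by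
      have i2 : Integrable (fun t => M - G t) ν := (integrable_const M).sub hGi
      rw [integral_const_mul, integral_add (integrable_const _) i2,
        integral_sub (integrable_const _) hGi]
      simp [M]
    linarith
  have hprod : Integrable (fun q : ℝ × ℝ => exp (1 * G q.1) * exp (-1 * G q.2)) (ν.prod ν) :=
    (hEi _ (Or.inl rfl)).mul_prod (hEi _ (Or.inr rfl))
  have hswap : Integrable (fun q : ℝ × ℝ => exp (1 * G q.2) * exp (-1 * G q.1)) (ν.prod ν) :=
    hprod.swap
  have hlin : ∀ s : ℝ, Integrable (fun q : ℝ × ℝ => exp (s * q.1) * exp (-s * q.2)) (ν.prod ν) :=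
    fun s => (integrable_exp_mul_gaussianReal s).mul_prod (integrable_exp_mul_gaussianReal (-s))
  have hlv : ∀ s : ℝ, ∫ q, exp (s * q.1) * exp (-s * q.2) ∂ν.prod ν = exp (s ^ 2) := fun s => by
    have e : ∀ r : ℝ, ∫ t, exp (r * t) ∂ν = exp (r ^ 2 / 2) := fun r => by
      have := congrFun (mgf_id_gaussianReal (μ := 0) (v := 1)) r
      simpa [mgf, ν] using this
    rw [integral_prod_mul (fun t => exp (s * t)) (fun t => exp (-s * t)), e, e, ← exp_add]
    congr 1; ring
  have hsym : (∫ t, exp (1 * G t) ∂ν) * ∫ t, exp (-1 * G t) ∂ν ≤ exp (c ^ 2) := by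
    rw [← integral_prod_mul (fun t => exp (1 * G t)) (fun t => exp (-1 * G t))]
    have hsw : ∫ q : ℝ × ℝ, exp (1 * G q.2) * exp (-1 * G q.1) ∂ν.prod ν
        = ∫ q : ℝ × ℝ, exp (1 * G q.1) * exp (-1 * G q.2) ∂ν.prod ν :=
      integral_prod_swap (fun q : ℝ × ℝ => exp (1 * G q.1) * exp (-1 * G q.2))
    have hpt : ∀ q : ℝ × ℝ, exp (1 * G q.1) * exp (-1 * G q.2) + exp (1 * G q.2) * exp (-1 * G q.1)
        ≤ exp (c * q.1) * exp (-c * q.2) + exp (-c * q.1) * exp (-(-c) * q.2) := by
      intro q
      have h : cosh (G q.1 - G q.2) ≤ cosh (c * (q.1 - q.2)) := by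
        rw [cosh_le_cosh, abs_mul, abs_of_nonneg hc]; exact hG _ _
      rw [cosh_eq, cosh_eq] at h
      simp only [← exp_add]
      ring_nf at h ⊢
      linarith
    have h := integral_mono (hprod.add hswap) ((hlin c).add (hlin (-c))) hpt
    rw [integral_add' hprod hswap, integral_add' (hlin c) (hlin (-c)), hsw, hlv, hlv, neg_sq] at h
    linarith
  have h2 : (∫ t, exp (1 * G t) ∂ν) * exp (-M) ≤ exp (c ^ 2) :=
    (mul_le_mul_of_nonneg_left hJ (integral_nonneg fun t => (exp_pos _).le)).trans hsym
  rw [h1]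
  calc ∫ t, exp (1 * G t) ∂ν = (∫ t, exp (1 * G t) ∂ν) * exp (-M) * exp M := by
        rw [mul_assoc, ← exp_add]; simp
    _ ≤ exp (c ^ 2) * exp M := by gcongr

lemma exp_moment_fin : ∀ (m : ℕ) (F : (Fin m → ℝ) → ℝ) (c : Fin m → ℝ),
    (∀ g g', |F g - F g'| ≤ ∑ i, c i * |g i - g' i|) →
    ∫ g, exp (F g) ∂gauss (Fin m) ≤ exp (∑ i, c i ^ 2) * exp (∫ g, F g ∂gauss (Fin m)) := by
  intro m
  induction m with
  | zero =>
    intro F c _
    have : ∀ g : Fin 0 → ℝ, F g = F 0 := fun g => congrArg F (Subsingleton.elim _ _)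
    simp [this]
  | succ m ih =>
    intro F c hF
    set μ := gauss (Fin m)
    set ν := gaussianReal 0 1 with hν0
    have hmp : MeasurePreserving (fun q : ℝ × (Fin m → ℝ) => Fin.cons q.1 q.2) (ν.prod μ)
        (gauss (Fin (m + 1))) := by
      have h := (measurePreserving_piFinSuccAbove (fun _ : Fin (m + 1) => gaussianReal 0 1) 0).symm
      convert h using 1
      · funext q; simp [MeasurableEquiv.piFinSuccAbove, Fin.consEquiv]
      all_goals rfl
    have hFc := continuous_of_coord_lip hF
    have hx : ∀ (r : Fin m → ℝ) (t t' : ℝ),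
        |F (Fin.cons t r) - F (Fin.cons t' r)| ≤ c 0 * |t - t'| := by
      intro r t t'
      refine (hF _ _).trans_eq ?_
      simp [Fin.sum_univ_succ]
    have hy : ∀ (t : ℝ) r r', |F (Fin.cons t r) - F (Fin.cons t r')| ≤
        ∑ i, c i.succ * |r i - r' i| := by
      intro t r r'
      refine (hF _ _).trans_eq ?_
      simp [Fin.sum_univ_succ]
    have hti : ∀ r, Integrable (fun t => F (Fin.cons t r)) ν := fun r => by
      refine ((integrable_const |F (Fin.cons 0 r)|).add
        (((memLp_id_gaussianReal 1).integrable le_rfl).abs.const_mul (c 0))).mono' (hFc.comp (by fun_prop)).aestronglyMeasurable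
        (ae_of_all _ fun t => ?_)
      rw [norm_eq_abs]
      have h1 := hx r t 0
      rw [sub_zero] at h1
      simp only [Pi.add_apply, id_eq]
      linarith [abs_sub_abs_le_abs_sub (F (Fin.cons t r)) (F (Fin.cons 0 r))]
    set G : (Fin m → ℝ) → ℝ := fun r => ∫ t, F (Fin.cons t r) ∂ν with hG
    have hGL : ∀ r r', |G r - G r'| ≤ ∑ i, c i.succ * |r i - r' i| := by
      intro r r'
      simp only [hG]
      rw [← integral_sub (hti r) (hti r')]
      refine abs_integral_le_integral_abs.trans ?_
      refine (integral_mono ((hti r).sub (hti r')).abs (integrable_const _)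
        fun t => hy t r r').trans_eq ?_
      simp
    have hI := hmp.integrable_comp_of_integrable (integrable_of_coord_lip hF)
    have hMG : ∫ r, G r ∂μ = ∫ g, F g ∂gauss (Fin (m + 1)) := by
      rw [← integral_comp_mp hmp hFc.aestronglyMeasurable]
      exact (integral_prod_symm _ hI).symm
    have hE := hmp.integrable_comp_of_integrable (integrable_exp_coord_lip hF)
    rw [← integral_comp_mp hmp (F := fun g => exp (F g)) hFc.rexp.aestronglyMeasurable,
      show (fun q : ℝ × (Fin m → ℝ) => exp (F (Fin.cons q.1 q.2)))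
        = (fun g => exp (F g)) ∘ fun q : ℝ × (Fin m → ℝ) => Fin.cons q.1 q.2 from rfl,
      integral_prod_symm _ hE]
    refine (integral_mono hE.integral_prod_right
      ((integrable_exp_coord_lip hGL).const_mul (exp (c 0 ^ 2)))
      fun r => exp_moment_one (hx r)).trans ?_
    rw [integral_const_mul, Fin.sum_univ_succ, exp_add, mul_assoc]
    refine mul_le_mul_of_nonneg_left ((ih G _ hGL).trans_eq ?_) (exp_pos _).le
    rw [hMG]

/-- Exponential moments of a coordinatewise Lipschitz function. -/
theorem exp_moment {F : (ι → ℝ) → ℝ} {c : ι → ℝ}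
    (hF : ∀ g g', |F g - F g'| ≤ ∑ i, c i * |g i - g' i|) :
    ∫ g, exp (F g) ∂gauss ι ≤ exp (∑ i, c i ^ 2) * exp (∫ g, F g ∂gauss ι) := by
  set e := (Fintype.equivFin ι).symm
  have hmp : MeasurePreserving (fun g : ι → ℝ => fun i => g (e i)) (gauss ι)
      (gauss (Fin (Fintype.card ι))) := gauss_reindex e
  set F' : (Fin (Fintype.card ι) → ℝ) → ℝ := fun g => F fun i => g (e.symm i) with hF'
  have hL : ∀ g g', |F' g - F' g'| ≤ ∑ i, c (e i) * |g i - g' i| := fun g g' => by
    refine (hF _ _).trans_eq ?_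
    rw [← e.sum_comp]
    simp
  have hc' := continuous_of_coord_lip hL
  have hback : ∀ g : ι → ℝ, F' (fun i => g (e i)) = F g := fun g => by simp [hF']
  have h := exp_moment_fin _ F' _ hL
  rw [← integral_comp_mp hmp (F := fun g => exp (F' g)) hc'.rexp.aestronglyMeasurable,
    ← integral_comp_mp hmp (F := F') hc'.aestronglyMeasurable, e.sum_comp fun i => c i ^ 2] at h
  simpa only [hback] using h

/-- Lower tail of a coordinatewise Lipschitz function. -/
theorem lip_lower_tail {F : (ι → ℝ) → ℝ} {c : ι → ℝ} {v : ℝ}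
    (hF : ∀ g g', |F g - F g'| ≤ ∑ i, c i * |g i - g' i|) (hv : ∑ i, c i ^ 2 ≤ v) (hv0 : 0 < v)
    {s : ℝ} (hs : 0 ≤ s) :
    (gauss ι).real {g | F g ≤ (∫ g', F g' ∂gauss ι) - s} ≤ exp (-(s ^ 2) / (4 * v)) := by
  set l := s / (2 * v) with hl
  have hl0 : 0 ≤ l := by positivity
  have hG : ∀ g g', |(-(l * F g)) - (-(l * F g'))| ≤ ∑ i, l * c i * |g i - g' i| := fun g g' => by
    rw [neg_sub_neg, ← mul_sub, abs_mul, abs_of_nonneg hl0, abs_sub_comm]
    refine (mul_le_mul_of_nonneg_left (hF g g') hl0).trans_eq ?_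
    rw [Finset.mul_sum]
    exact Finset.sum_congr rfl fun i _ => by ring
  have hm := exp_moment (F := fun g => -(l * F g)) hG
  set M := ∫ g', F g' ∂gauss ι
  have hmk := mul_meas_ge_le_integral_of_nonneg (μ := gauss ι)
    (f := fun g => exp (-(l * F g))) (ae_of_all _ fun g => (exp_pos _).le)
    (integrable_exp_coord_lip (F := fun g => -(l * F g)) hG) (exp (-(l * (M - s))))
  have hset : {g | F g ≤ M - s} ⊆ {g | exp (-(l * (M - s))) ≤ exp (-(l * F g))} := fun g hg => by
    simp only [Set.mem_ofPred_eq, exp_le_exp, neg_le_neg_iff] at hg ⊢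
    exact mul_le_mul_of_nonneg_left hg hl0
  have h := (mul_le_mul_of_nonneg_left (measureReal_mono hset) (exp_pos _).le).trans
    (hmk.trans hm)
  rw [integral_neg, integral_const_mul, ← exp_add, mul_comm, ← le_div_iff₀ (exp_pos _),
    ← exp_sub] at h
  refine h.trans (exp_le_exp.2 ?_)
  have hsum : ∑ i, (l * c i) ^ 2 ≤ l ^ 2 * v := by
    simp only [mul_pow, ← Finset.mul_sum]
    exact mul_le_mul_of_nonneg_left hv (sq_nonneg _)
  have e : l ^ 2 * v - l * s = -(s ^ 2) / (4 * v) := by
    rw [hl]; field_simp; ring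
  linarith

end Vale.Agent.P146
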